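import Vale.Agent.P011.E6X.Pt

/-!
Block E6W (helper964): the change of coordinates which exchanges two generators.
-/

open Matrix

namespace Vale.Agent.P011.E6W.H964

open Vale.Agent.P011.MPQ
open Vale.Agent.P011.D4 Vale.Agent.P011.D4.Oct Vale.Agent.P011.E6

section trip

variable {F : Type} [Field F] {a b c : Fˣ}

/-- The frame `(i, l, j)`. -/
theorem trip_swap : Trip a c b (gi : Oct a b c) gl gj where
  si := by ext <;> simp [gi]
  sj := by ext <;> simp [gl]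
  sl := by ext <;> simp [gj]
  ii := by ext <;> simp [gi]
  jj := by ext <;> simp [gl]
  ll := by ext <;> simp [gj]
  ij := by simp [dot, gi, gl]
  il := by simp [dot, gi, gj]
  jl := by simp [dot, gj, gl]
  ijl := by simp [dot, gi, gj, gl]

theorem aniso_swap (h : Division a b c) : Aniso a c := by
  intro x hx
  have h1 := h (⟨⟨x.re, x.imI, 0, 0⟩, ⟨x.imJ, x.imK, 0, 0⟩⟩ : Oct a b c) (by
    have e : nrd x = x.re ^ 2 - a * x.imI ^ 2 - c * x.imJ ^ 2 + a * c * x.imK ^ 2 := rfl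
    rw [e] at hx
    simp [Oct.norm, nrd]
    linear_combination hx)
  have h2 : (⟨x.re, x.imI, 0, 0⟩ : Qt a b) = 0 := congrArg Oct.fst h1
  have h3 : (⟨x.imJ, x.imK, 0, 0⟩ : Qt a b) = 0 := congrArg Oct.snd h1
  apply QuaternionAlgebra.ext
  · exact congrArg (fun t : Qt a b => t.re) h2
  · exact congrArg (fun t : Qt a b => t.imI) h2
  · exact congrArg (fun t : Qt a b => t.re) h3
  · exact congrArg (fun t : Qt a b => t.imI) h3

end trip

section E

variable {k E : Type} [Field k] [Field E] [Algebra k E] [NeZero (2 : E)] {a b c : kˣ}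

omit [NeZero (2 : E)] in
theorem gi_mul_gl : (gi : OctL E a b c) * gl = ⟨0, ⟨0, 1, 0, 0⟩⟩ := by
  apply Oct.ext
  · rw [fst_mul]
    change (⟨0, 1, 0, 0⟩ : Qt (up E a) (up E b)) * 0 +
      ((up E c : Eˣ) : E) • (star (1 : Qt (up E a) (up E b)) * 0) = 0
    rw [mul_zero, mul_zero, smul_zero, add_zero]
  · rw [snd_mul]
    change (1 : Qt (up E a) (up E b)) * ⟨0, 1, 0, 0⟩ +
      (0 : Qt (up E a) (up E b)) * star (0 : Qt (up E a) (up E b)) = _
    rw [one_mul, zero_mul, add_zero]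

omit [NeZero (2 : E)] in
theorem mul_gj (u v s t : E) :
    (⟨⟨u, v, 0, 0⟩, ⟨s, t, 0, 0⟩⟩ : OctL E a b c) * gj = ⟨⟨0, 0, u, v⟩, ⟨0, 0, -s, -t⟩⟩ := by
  apply Oct.ext
  · rw [fst_mul]
    change (⟨u, v, 0, 0⟩ : Qt (up E a) (up E b)) * ⟨0, 0, 1, 0⟩ +
      ((up E c : Eˣ) : E) • (star (0 : Qt (up E a) (up E b)) * ⟨s, t, 0, 0⟩) = ⟨0, 0, u, v⟩
    rw [star_zero, zero_mul, smul_zero, add_zero, QuaternionAlgebra.mk_mul_mk]
    apply QuaternionAlgebra.ext <;> simp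
  · rw [snd_mul]
    change (0 : Qt (up E a) (up E b)) * ⟨u, v, 0, 0⟩ +
      (⟨s, t, 0, 0⟩ : Qt (up E a) (up E b)) * star (⟨0, 0, 1, 0⟩ : Qt (up E a) (up E b)) =
        ⟨0, 0, -s, -t⟩
    rw [zero_mul, zero_add, QuaternionAlgebra.star_mk, QuaternionAlgebra.mk_mul_mk]
    apply QuaternionAlgebra.ext <;> simp

omit [NeZero (2 : E)] in
theorem qemb_sw (p : Qt (up E a) (up E c)) :
    Oct.qemb (gi : OctL E a b c) gl p = ⟨⟨p.re, p.imI, 0, 0⟩, ⟨p.imJ, p.imK, 0, 0⟩⟩ := by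
  unfold Oct.qemb
  rw [gi_mul_gl]
  refine Oct.ext (QuaternionAlgebra.ext ?_ ?_ ?_ ?_) (QuaternionAlgebra.ext ?_ ?_ ?_ ?_)
  · change p.re * 1 + p.imI * 0 + p.imJ * 0 + p.imK * 0 = p.re
    ring
  · change p.re * 0 + p.imI * 1 + p.imJ * 0 + p.imK * 0 = p.imI
    ring
  · change p.re * 0 + p.imI * 0 + p.imJ * 0 + p.imK * 0 = 0
    ring
  · change p.re * 0 + p.imI * 0 + p.imJ * 0 + p.imK * 0 = 0
    ring
  · change p.re * 0 + p.imI * 0 + p.imJ * 1 + p.imK * 0 = p.imJ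
    ring
  · change p.re * 0 + p.imI * 0 + p.imJ * 0 + p.imK * 1 = p.imK
    ring
  · change p.re * 0 + p.imI * 0 + p.imJ * 0 + p.imK * 0 = 0
    ring
  · change p.re * 0 + p.imI * 0 + p.imJ * 0 + p.imK * 0 = 0
    ring

/-- The change of coordinates. -/
theorem tripO_sw (p q : Qt (up E a) (up E c)) :
    tripO E (trip_swap : Trip a c b (gi : Oct a b c) gl gj) (⟨p, q⟩ : OctL E a c b) =
      ⟨⟨p.re, p.imI, q.re, q.imI⟩, ⟨p.imJ, p.imK, -q.imJ, -q.imK⟩⟩ := by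
  rw [tripO_apply]
  unfold Oct.emb
  rw [oup_gi, oup_gj, oup_gl, qemb_sw, qemb_sw, mul_gj]
  refine Oct.ext (QuaternionAlgebra.ext ?_ ?_ ?_ ?_) (QuaternionAlgebra.ext ?_ ?_ ?_ ?_)
  · change p.re + 0 = p.re
    ring
  · change p.imI + 0 = p.imI
    ring
  · change 0 + q.re = q.re
    ring
  · change 0 + q.imI = q.imI
    ring
  · change p.imJ + 0 = p.imJ
    ring
  · change p.imK + 0 = p.imK
    ring
  · change 0 + -q.imJ = -q.imJ
    ring
  · change 0 + -q.imK = -q.imK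
    ring

end E

end Vale.Agent.P011.E6W.H964
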