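import Vale.Agent.P011.E6I.H553.Sym
import Vale.Agent.P011.E6O.H24.Bas

/-!
Block E6W (helper964): the matrices `x + y j` over the quaternions.
-/

open Matrix

namespace Vale.Agent.P011.E6W.H964

open Vale.Agent.P011.MPQ
open Vale.Agent.P011.D4 Vale.Agent.P011.D4.Oct Vale.Agent.P011.E6
open Vale.Agent.P011.E6O
open Vale.Agent.P011.E6I (MQ toMQ tm co co_ext co_mul0 co_mul1 co_mul2 co_mul3 co_tm0 co_tm1 co_tm2
  co_tm3 co_mul_tm co_tm_mul tm_mul tm_inj tm_one tm_ct nq nq_eq)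

section gen

variable {K : Type} [Field K] {a b : Kˣ}

/-- The matrix `x + y j`. -/
def Xm (a b : Kˣ) (x y : Matrix (Fin 3) (Fin 3) K) : Matrix (Fin 3) (Fin 3) (Qt a b) :=
  Matrix.of fun i j => ⟨x i j, 0, y i j, 0⟩

theorem co_Xm0 (x y : Matrix (Fin 3) (Fin 3) K) : co 0 (Xm a b x y) = x := rfl
theorem co_Xm1 (x y : Matrix (Fin 3) (Fin 3) K) : co 1 (Xm a b x y) = 0 := rfl
theorem co_Xm2 (x y : Matrix (Fin 3) (Fin 3) K) : co 2 (Xm a b x y) = y := rfl
theorem co_Xm3 (x y : Matrix (Fin 3) (Fin 3) K) : co 3 (Xm a b x y) = 0 := rfl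

theorem Xm_ext {m : Matrix (Fin 3) (Fin 3) (Qt a b)} {x y : Matrix (Fin 3) (Fin 3) K}
    (h0 : co 0 m = x) (h1 : co 1 m = 0) (h2 : co 2 m = y) (h3 : co 3 m = 0) :
    m = Xm a b x y := by
  apply co_ext
  intro i
  fin_cases i
  · exact h0
  · exact h1
  · exact h2
  · exact h3

theorem Xm_mul (x y x' y' : Matrix (Fin 3) (Fin 3) K) : Xm a b x y * Xm a b x' y' =
    Xm a b (x * x' + (b : K) • (y * y')) (x * y' + y * x') := by
  apply Xm_ext
  · rw [co_mul0, co_Xm0, co_Xm0, co_Xm1, co_Xm1, co_Xm2, co_Xm2, co_Xm3, co_Xm3]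
    simp only [Matrix.zero_mul, smul_zero, add_zero, sub_zero]
  · rw [co_mul1, co_Xm0, co_Xm0, co_Xm1, co_Xm1, co_Xm2, co_Xm2, co_Xm3, co_Xm3]
    simp only [Matrix.zero_mul, Matrix.mul_zero, smul_zero, add_zero, sub_zero]
  · rw [co_mul2, co_Xm0, co_Xm0, co_Xm1, co_Xm1, co_Xm2, co_Xm2, co_Xm3, co_Xm3]
    simp only [Matrix.zero_mul, smul_zero, add_zero, sub_zero]
  · rw [co_mul3, co_Xm0, co_Xm0, co_Xm1, co_Xm1, co_Xm2, co_Xm2, co_Xm3, co_Xm3]
    simp only [Matrix.zero_mul, Matrix.mul_zero, add_zero, sub_zero]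

theorem Xm_zero (x : Matrix (Fin 3) (Fin 3) K) : Xm a b x 0 = tm a b x :=
  (Xm_ext (co_tm0 x) (co_tm1 x) (co_tm2 x) (co_tm3 x)).symm

theorem Xm_one : Xm a b 1 0 = 1 := by rw [Xm_zero, tm_one]

theorem Xm_ct (x y : Matrix (Fin 3) (Fin 3) K) : (Xm a b x y)ᴴ = Xm a b xᵀ (-yᵀ) := by
  apply Matrix.ext
  intro i j
  apply QuaternionAlgebra.ext <;> simp [Xm]

theorem Xm_comm_tm {x y z : Matrix (Fin 3) (Fin 3) K} (hx : x * z = z * x)
    (hy : y * z = z * y) : Xm a b x y * tm a b z = tm a b z * Xm a b x y := by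
  rw [← Xm_zero, Xm_mul, Xm_mul, hx, hy]
  simp

theorem nq_Xm (x y : Matrix (Fin 3) (Fin 3) K) : nq (Xm a b x y) = x * x - (b : K) • (y * y) := by
  rw [nq_eq, co_Xm0, co_Xm1, co_Xm2, co_Xm3]
  simp

/-- The matrix `x + y j` as a unit. -/
def XU (a b : Kˣ) (x y : Matrix (Fin 3) (Fin 3) K) (hc : x * y = y * x)
    (h1 : x * x - (b : K) • (y * y) = 1) : (Matrix (Fin 3) (Fin 3) (Qt a b))ˣ where
  val := Xm a b x y
  inv := Xm a b x (-y)
  val_inv := by
    rw [Xm_mul]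
    have e : x * x + (b : K) • (y * -y) = 1 := by
      rw [← h1, Matrix.mul_neg, smul_neg, sub_eq_add_neg]
    rw [e, Matrix.mul_neg, hc, neg_add_cancel, Xm_one]
  inv_val := by
    rw [Xm_mul]
    have e : x * x + (b : K) • (-y * y) = 1 := by
      rw [← h1, Matrix.neg_mul, smul_neg, sub_eq_add_neg]
    rw [e, Matrix.neg_mul, hc, add_neg_cancel, Xm_one]

/-- The action of `x + y j` on a matrix with coordinates `S`, `S'`. -/
theorem co_conj_Xm {x y S S' : Matrix (Fin 3) (Fin 3) K} {M : Matrix (Fin 3) (Fin 3) (Qt a b)}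
    (h0 : co 0 M = S) (h1 : co 1 M = S') (h2 : co 2 M = 0) (h3 : co 3 M = 0) :
    co 2 (Xm a b x y * M * (Xm a b x y)ᴴ) = y * S * xᵀ - x * S * yᵀ ∧
    co 3 (Xm a b x y * M * (Xm a b x y)ᴴ) = -(y * S' * xᵀ) - x * S' * yᵀ := by
  have e0 : co 0 (Xm a b x y * M) = x * S := by
    rw [co_mul0, co_Xm0, co_Xm1, co_Xm2, co_Xm3, h0, h1, h2, h3]
    simp
  have e1 : co 1 (Xm a b x y * M) = x * S' := by
    rw [co_mul1, co_Xm0, co_Xm1, co_Xm2, co_Xm3, h0, h1, h2, h3]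
    simp
  have e2 : co 2 (Xm a b x y * M) = y * S := by
    rw [co_mul2, co_Xm0, co_Xm1, co_Xm2, co_Xm3, h0, h1, h2, h3]
    simp
  have e3 : co 3 (Xm a b x y * M) = -(y * S') := by
    rw [co_mul3, co_Xm0, co_Xm1, co_Xm2, co_Xm3, h0, h1, h2, h3]
    simp
  rw [Xm_ct]
  constructor
  · rw [co_mul2, e0, e1, e2, e3, co_Xm0, co_Xm1, co_Xm2, co_Xm3]
    simp only [Matrix.mul_zero, Matrix.mul_neg, smul_zero, add_zero, sub_zero]
    abel
  · rw [co_mul3, e0, e1, e2, e3, co_Xm0, co_Xm1, co_Xm2, co_Xm3]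
    simp only [Matrix.mul_zero, Matrix.mul_neg, Matrix.neg_mul]
    abel

end gen

section E

variable {k E : Type} [Field k] [Field E] [Algebra k E] {ρ σ : E ≃ₐ[k] E} {lam : Eˣ}
  {g : Fin 3 → Eˣ} {a b c : kˣ}

theorem inD_of_co {m : MQ E a b} (h : ∀ i, E6O.InD0 ρ lam (co i m)) : E6O.InD ρ lam m := by
  rw [E6O.InD]
  apply co_ext
  intro i
  have h1 := h i
  rw [E6O.InD0] at h1
  rw [show (toMQ (um lam) : MQ E a b) = tm (up E a) (up E b) (um lam) from rfl,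
    co_mul_tm, co_tm_mul, h1]
  congr 1
  fin_cases i <;> rfl

theorem inD0_zero : E6O.InD0 ρ lam (0 : Matrix (Fin 3) (Fin 3) E) := by
  rw [E6O.InD0]
  ext i j
  simp [Matrix.mul_apply]

theorem inD_Xm {x y : Matrix (Fin 3) (Fin 3) E} (hx : E6O.InD0 ρ lam x)
    (hy : E6O.InD0 ρ lam y) : E6O.InD ρ lam (Xm (up E a) (up E b) x y : MQ E a b) := by
  apply inD_of_co
  intro i
  fin_cases i
  · exact hx
  · exact inD0_zero
  · exact hy
  · exact inD0_zero

theorem Xm_map (x y : Matrix (Fin 3) (Fin 3) E) :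
    (Xm (up E a) (up E b) x y).map (qmap σ) = Xm (up E a) (up E b) (x.map σ) (y.map σ) := by
  apply Matrix.ext
  intro i j
  apply QuaternionAlgebra.ext
  · rfl
  · exact map_zero σ
  · rfl
  · exact map_zero σ

/-- The diagonal matrix of the weights. -/
def Gm (g : Fin 3 → Eˣ) : Matrix (Fin 3) (Fin 3) E := Matrix.diagonal fun i => (g i : E)

theorem dg_eq (g : Fin 3 → Eˣ) : dg (up E a) (up E b) g = tm (up E a) (up E b) (Gm g) := by
  apply Matrix.ext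
  intro i j
  rw [dg, tm, Gm, Matrix.map_apply, Matrix.diagonal_apply, Matrix.diagonal_apply]
  split_ifs
  · rfl
  · exact (map_zero _).symm

/-- The matrix is symmetric for the involution attached to the weights. -/
def Sy (σ : E ≃ₐ[k] E) (g : Fin 3 → Eˣ) (m : Matrix (Fin 3) (Fin 3) E) : Prop :=
  (m.map σ)ᵀ * Gm g = Gm g * m

theorem isUn_Xm {x y : Matrix (Fin 3) (Fin 3) E} (hx : Sy σ g x) (hy : Sy σ g y)
    (hc : x * y = y * x) (h1 : x * x - ((up E b : Eˣ) : E) • (y * y) = 1) :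
    IsUn σ g 1 (Xm (up E a) (up E b) x y : MQ E a b) := by
  rw [IsUn, Xm_map, Xm_ct, dg_eq, ← Xm_zero, Xm_mul, Xm_mul, one_smul]
  have hx' : (x.map σ)ᵀ * Gm g = Gm g * x := hx
  have hy' : (y.map σ)ᵀ * Gm g = Gm g * y := hy
  simp only [Matrix.mul_zero, smul_zero, add_zero, zero_add, Matrix.neg_mul]
  rw [hx', hy']
  congr 1
  · rw [Matrix.mul_assoc, Matrix.mul_assoc, smul_neg, ← sub_eq_add_neg,
      ← Matrix.mul_smul, ← Matrix.mul_sub, h1, Matrix.mul_one]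
  · rw [Matrix.mul_assoc, Matrix.mul_assoc, hc, add_neg_cancel]

/-- The maps `act m 1`, for unitary matrices of norm one. -/
theorem exists_actW [NeZero (2 : E)] (hab : Aniso (up E a) (up E b)) {m : (MQ E a b)ˣ}
    (hm : E6O.InD ρ lam (m : MQ E a b)) (hu : IsUn σ g 1 (m : MQ E a b))
    (hn : nu (m : MQ E a b) = 1) :
    ∃ φ ∈ GO ρ σ lam g a b c, ∀ x, φ x = Alb.act m 1 x := by
  refine ⟨H64.actL two_ne_zero m 1, ⟨fun x => ?_, fun x => ?_, fun x y => ?_⟩, fun x => rfl⟩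
  · rw [H64.actL_apply, Units.val_one, H64.cub_act two_ne_zero hab m (by rw [nrd_one, hn]), hn,
      one_mul]
  · rw [H64.actL_apply, H64.actL_apply, Units.val_one]
    exact (ph_act hm (κ := 1) (qmap_one ρ) x).symm
  · rw [H64.actL_apply, H64.actL_apply, Units.val_one]
    have h := her_act (σ := σ) (g := g) (μ := 1) one_ne_zero hu (κ := 1)
      (by rw [qmap_one, star_one, one_mul, one_pow]; rfl) x y
    rw [h, one_pow, one_mul]

end E

end Vale.Agent.P011.E6W.H964
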