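import Vale.Agent.P011.E6W.H964.MatB
import Vale.Agent.P011.E6W.H964.Xm
import Vale.Agent.P011.E6W.H964.Sw
import Vale.Agent.P011.E6I.H637.Shift
import Vale.Agent.P011.E6W.H183.KRho

/-!
Block E6W (helper964): an element of the group which fixes a frame `W₀` pointwise and such that
`V ∩ n⁻¹ V = W₀`.
-/

open Matrix

namespace Vale.Agent.P011.E6W.H964

open Vale.Agent.P011.MPQ
open Vale.Agent.P011.D4 Vale.Agent.P011.D4.Oct Vale.Agent.P011.E6
open Vale.Agent.P011.E6.Alb (mat ofF)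
open Vale.Agent.P011.E6O
open Vale.Agent.P011.E6W.H183 (WH adjM rhoK unK)
open Vale.Agent.P011.E6I (MQ toMQ InVs tm co co_ext co_mul_tm co_tm_mul tm_mul tm_inj tm_one tm_ct
  nq nq_eq dz exists_T mat_ofF nu_eq_det act_ofF co_isHermitian D0_mul D0_sub D0_smul D0_one)

section Sy

variable {k E : Type} [Field k] [Field E] [Algebra k E] {σ : E ≃ₐ[k] E} {g : Fin 3 → Eˣ}
  {m n : Matrix (Fin 3) (Fin 3) E} {a b : kˣ}

theorem map_mulE (m n : Matrix (Fin 3) (Fin 3) E) : (m * n).map σ = m.map σ * n.map σ :=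
  Matrix.map_mul (f := (σ : E →+* E))

theorem map_addE (m n : Matrix (Fin 3) (Fin 3) E) : (m + n).map σ = m.map σ + n.map σ :=
  Matrix.map_add _ (map_add σ) _ _

theorem map_subE (m n : Matrix (Fin 3) (Fin 3) E) : (m - n).map σ = m.map σ - n.map σ :=
  Matrix.map_sub _ (map_sub σ) _ _

theorem map_smulE (t : E) (m : Matrix (Fin 3) (Fin 3) E) : (t • m).map σ = σ t • m.map σ := by
  ext i j
  simp

theorem map_oneE : (1 : Matrix (Fin 3) (Fin 3) E).map σ = 1 :=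
  Matrix.map_one _ (map_zero σ) (map_one σ)

theorem Sy_one : Sy σ g 1 := by
  rw [Sy, map_oneE, Matrix.transpose_one, Matrix.one_mul, Matrix.mul_one]

theorem Sy_mul (hm : Sy σ g m) (hn : Sy σ g n) (h : m * n = n * m) : Sy σ g (m * n) := by
  have hm' : (m.map σ)ᵀ * Gm g = Gm g * m := hm
  have hn' : (n.map σ)ᵀ * Gm g = Gm g * n := hn
  rw [Sy, map_mulE, Matrix.transpose_mul, Matrix.mul_assoc, hm', ← Matrix.mul_assoc, hn',
    Matrix.mul_assoc, h]

theorem Sy_add (hm : Sy σ g m) (hn : Sy σ g n) : Sy σ g (m + n) := by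
  have hm' : (m.map σ)ᵀ * Gm g = Gm g * m := hm
  have hn' : (n.map σ)ᵀ * Gm g = Gm g * n := hn
  rw [Sy, map_addE, Matrix.transpose_add, Matrix.add_mul, hm', hn', Matrix.mul_add]

theorem Sy_sub (hm : Sy σ g m) (hn : Sy σ g n) : Sy σ g (m - n) := by
  have hm' : (m.map σ)ᵀ * Gm g = Gm g * m := hm
  have hn' : (n.map σ)ᵀ * Gm g = Gm g * n := hn
  rw [Sy, map_subE, Matrix.transpose_sub, Matrix.sub_mul, hm', hn', Matrix.mul_sub]

theorem Sy_smul {t : E} (ht : σ t = t) (hm : Sy σ g m) : Sy σ g (t • m) := by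
  have hm' : (m.map σ)ᵀ * Gm g = Gm g * m := hm
  rw [Sy, map_smulE, ht, Matrix.transpose_smul, Matrix.smul_mul, hm', Matrix.mul_smul]

theorem Sy_inv (hd : m.det ≠ 0) (hm : Sy σ g m) : Sy σ g m⁻¹ := by
  have hm' : (m.map σ)ᵀ * Gm g = Gm g * m := hm
  have hu : IsUnit m.det := isUnit_iff_ne_zero.2 hd
  have h1 : ((m⁻¹).map σ)ᵀ * (m.map σ)ᵀ = 1 := by
    rw [← Matrix.transpose_mul, ← map_mulE, Matrix.mul_nonsing_inv _ hu, map_oneE,
      Matrix.transpose_one]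
  rw [Sy]
  calc ((m⁻¹).map σ)ᵀ * Gm g = ((m⁻¹).map σ)ᵀ * (Gm g * m) * m⁻¹ := by
        rw [Matrix.mul_assoc, Matrix.mul_assoc, Matrix.mul_nonsing_inv _ hu, Matrix.mul_one]
    _ = Gm g * m⁻¹ := by
        rw [← hm', ← Matrix.mul_assoc, h1, Matrix.one_mul]

theorem Sy_De {c : E} (hc : σ c = c) (hm : Sy σ g m) : Sy σ g (De m c) :=
  Sy_sub (Sy_mul hm hm rfl) (Sy_smul hc Sy_one)

theorem Sy_xz {c : E} (hc : σ c = c) (hm : Sy σ g m) (hd : (De m c).det ≠ 0) :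
    Sy σ g (xz m c) :=
  Sy_add Sy_one (Sy_smul (by rw [map_mul, hc, map_ofNat]) (Sy_inv hd (Sy_De hc hm)))

theorem Sy_yz {c : E} (hc : σ c = c) (hm : Sy σ g m) (hd : (De m c).det ≠ 0) :
    Sy σ g (yz m c) :=
  Sy_smul (map_ofNat σ 2) (Sy_mul hm (Sy_inv hd (Sy_De hc hm)) (Di_comm hd).symm)

/-- A symmetric element of the cyclic algebra. -/
theorem Sy_of_adjM (h : adjM σ g (toMQ m : MQ E a b) = toMQ m) : Sy σ g m := by
  have h1 : dg (up E a) (up E b) g * adjM σ g (toMQ m : MQ E a b) =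
      ((toMQ m : MQ E a b).map (qmap σ))ᴴ * dg (up E a) (up E b) g := by
    rw [adjM, ← Matrix.mul_assoc, ← Matrix.mul_assoc, H64.dg_mul_dgi, Matrix.one_mul]
  have h2 : (toMQ m : MQ E a b).map (qmap σ) = tm (up E a) (up E b) (m.map σ) := by
    apply Matrix.ext
    intro i j
    exact H64.qmap_coe σ (m i j)
  rw [h, h2, dg_eq, tm_ct, ← tm_mul] at h1
  have h3 : tm (up E a) (up E b) (Gm g * m) = tm (up E a) (up E b) ((m.map σ)ᵀ * Gm g) := by
    rw [tm_mul]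
    exact h1
  exact (tm_inj h3).symm

end Sy

set_option linter.unusedSectionVars false

section main

variable {k E : Type} [Field k] [NumberField k] [Field E] [NumberField E] [Algebra k E]
  {ρ σ : E ≃ₐ[k] E} {lam : Eˣ} {g : Fin 3 → Eˣ} {th s : E} {kap a b c : kˣ}
  {z : Matrix (Fin 3) (Fin 3) E}

/-- Transport of the elements of the group. -/
theorem conj_trip {a' b' c' : kˣ} {i j l : Oct a b c} (ht : Trip a' b' c' i j l)
    {φ : AlbL E a' b' c' ≃ₗ[E] AlbL E a' b' c'} (hφ : φ ∈ GO ρ σ lam g a' b' c') :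
    ((tripA E ht).symm.trans φ).trans (tripA E ht) ∈ GO ρ σ lam g a b c := by
  refine ⟨fun x => ?_, fun x => ?_, fun x y => ?_⟩
  · change Alb.cub (tripA E ht (φ ((tripA E ht).symm x))) = _
    rw [E6X.H493.tripA_cub, hφ.1, ← E6X.H493.tripA_cub ht, LinearEquiv.apply_symm_apply]
  · change tripA E ht (φ ((tripA E ht).symm (ph ρ lam x))) =
      ph ρ lam (tripA E ht (φ ((tripA E ht).symm x)))
    rw [← E6X.H493.tripA_ph, ← hφ.2.1]
    congr 2
    apply (tripA E ht).injective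
    rw [E6X.H493.tripA_ph, LinearEquiv.apply_symm_apply, LinearEquiv.apply_symm_apply]
  · change her σ g (tripA E ht (φ ((tripA E ht).symm x)))
      (tripA E ht (φ ((tripA E ht).symm y))) = _
    rw [E6X.H493.tripA_her, hφ.2.2, ← E6X.H493.tripA_her ht, LinearEquiv.apply_symm_apply,
      LinearEquiv.apply_symm_apply]

theorem inD0_iffK (hl : ρ (lam : E) = lam) :
    E6I.InD0 (rhoK ρ) (unK hl) z ↔ E6O.InD0 ρ lam z := Iff.rfl

end main

section coords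

variable {K : Type} [Field K] {a b : Kˣ} {z : Matrix (Fin 3) (Fin 3) K}

theorem comm_iff {M : Matrix (Fin 3) (Fin 3) (Qt a b)} :
    tm a b z * M = M * (tm a b z)ᴴ ↔ ∀ i, z * co i M = co i M * zᵀ := by
  rw [tm_ct]
  constructor
  · intro h i
    have h1 := congrArg (co i) h
    rwa [co_tm_mul, co_mul_tm] at h1
  · intro h
    apply co_ext
    intro i
    rw [co_tm_mul, co_mul_tm, h]

theorem comm_shift {M : Matrix (Fin 3) (Fin 3) (Qt a b)} {z' : Matrix (Fin 3) (Fin 3) K} {t u : K}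
    (ez : t • z = z' + u • (1 : Matrix (Fin 3) (Fin 3) K))
    (h : tm a b z * M = M * (tm a b z)ᴴ) : tm a b z' * M = M * (tm a b z')ᴴ := by
  rw [comm_iff] at h ⊢
  intro i
  have e : z' = t • z - u • (1 : Matrix (Fin 3) (Fin 3) K) := by rw [ez]; abel
  rw [e, Matrix.transpose_sub, Matrix.transpose_smul, Matrix.transpose_smul, Matrix.transpose_one,
    Matrix.sub_mul, Matrix.mul_sub, Matrix.smul_mul, Matrix.mul_smul, h i, Matrix.smul_mul,
    Matrix.mul_smul, Matrix.one_mul, Matrix.mul_one]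

end coords

section trip

variable {k E : Type} [Field k] [Field E] [Algebra k E] [NeZero (2 : E)] {a b c : kˣ}

theorem tripA_ofF' {a' b' c' : kˣ} {i j l : Oct a b c} (ht : Trip a' b' c' i j l)
    (S : Matrix (Fin 3) (Fin 3) E) :
    tripA E ht (Alb.ofF S : AlbL E a' b' c') = (Alb.ofF S : AlbL E a b c) := by
  have h1 : ∀ t : E, emb (oup E i) (oup E j) (oup E l) (t • (1 : OctL E a' b' c')) =
      t • (1 : OctL E a b c) := by
    intro t
    rw [← tripO_apply ht, map_smul, hom_one (tripO_mul ht)]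
  rw [tripA_apply]
  simp only [Alb.omapA, Alb.ofF, h1]

/-- The swapped coordinates of an element of `V`. -/
def InSw (y : AlbL E a c b) : Prop :=
  (y.x1.fst.imJ = 0 ∧ y.x1.fst.imK = 0 ∧ y.x1.snd.imJ = 0 ∧ y.x1.snd.imK = 0) ∧
  (y.x2.fst.imJ = 0 ∧ y.x2.fst.imK = 0 ∧ y.x2.snd.imJ = 0 ∧ y.x2.snd.imK = 0) ∧
  (y.x3.fst.imJ = 0 ∧ y.x3.fst.imK = 0 ∧ y.x3.snd.imJ = 0 ∧ y.x3.snd.imK = 0)

theorem tripO_sw' (x : OctL E a c b) :
    tripO E (trip_swap : Trip a c b (gi : Oct a b c) gl gj) x =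
      ⟨⟨x.fst.re, x.fst.imI, x.snd.re, x.snd.imI⟩,
        ⟨x.fst.imJ, x.fst.imK, -x.snd.imJ, -x.snd.imK⟩⟩ :=
  tripO_sw x.fst x.snd

theorem snd_zero_iff (x : OctL E a c b) :
    (tripO E (trip_swap : Trip a c b (gi : Oct a b c) gl gj) x).snd = 0 ↔
      x.fst.imJ = 0 ∧ x.fst.imK = 0 ∧ x.snd.imJ = 0 ∧ x.snd.imK = 0 := by
  rw [tripO_sw']
  constructor
  · intro h
    have h0 : x.fst.imJ = 0 := congrArg (fun t : Qt (up E a) (up E b) => t.re) h
    have h1 : x.fst.imK = 0 := congrArg (fun t : Qt (up E a) (up E b) => t.imI) h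
    have h2 : -x.snd.imJ = 0 := congrArg (fun t : Qt (up E a) (up E b) => t.imJ) h
    have h3 : -x.snd.imK = 0 := congrArg (fun t : Qt (up E a) (up E b) => t.imK) h
    exact ⟨h0, h1, neg_eq_zero.1 h2, neg_eq_zero.1 h3⟩
  · rintro ⟨h0, h1, h2, h3⟩
    apply QuaternionAlgebra.ext
    · exact h0
    · exact h1
    · exact neg_eq_zero.2 h2
    · exact neg_eq_zero.2 h3

theorem inVs_tripA (y : AlbL E a c b) :
    InVs (tripA E (trip_swap : Trip a c b (gi : Oct a b c) gl gj) y) ↔ InSw y :=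
  and_congr (snd_zero_iff y.x1) (and_congr (snd_zero_iff y.x2) (snd_zero_iff y.x3))

theorem co0_trip (y : AlbL E a c b) :
    co 0 (mat (tripA E (trip_swap : Trip a c b (gi : Oct a b c) gl gj) y)) = co 0 (mat y) := by
  have h : ∀ x : OctL E a c b, (tripO E (trip_swap : Trip a c b (gi : Oct a b c) gl gj) x).fst.re =
      x.fst.re := fun x => by rw [tripO_sw']
  have hs : ∀ (p : Qt (up E a) (up E b)) (q : Qt (up E a) (up E c)), p.re = q.re →
      (star p).re = (star q).re := fun p q h => by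
    rw [QuaternionAlgebra.re_star, QuaternionAlgebra.re_star, h, zero_mul, zero_mul]
  ext i j
  fin_cases i <;> fin_cases j
  · rfl
  · exact h y.x3
  · exact hs _ _ (h y.x2)
  · exact hs _ _ (h y.x3)
  · rfl
  · exact h y.x1
  · exact h y.x2
  · exact hs _ _ (h y.x1)
  · rfl

theorem co1_trip (y : AlbL E a c b) :
    co 1 (mat (tripA E (trip_swap : Trip a c b (gi : Oct a b c) gl gj) y)) = co 1 (mat y) := by
  have h : ∀ x : OctL E a c b, (tripO E (trip_swap : Trip a c b (gi : Oct a b c) gl gj) x).fst.imI =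
      x.fst.imI := fun x => by rw [tripO_sw']
  ext i j
  fin_cases i <;> fin_cases j
  · rfl
  · exact h y.x3
  · exact congrArg (fun t => -t) (h y.x2)
  · exact congrArg (fun t => -t) (h y.x3)
  · rfl
  · exact h y.x1
  · exact h y.x2
  · exact congrArg (fun t => -t) (h y.x1)
  · rfl

theorem co2_trip {y : AlbL E a c b} (h1 : y.x1.snd = 0) (h2 : y.x2.snd = 0) (h3 : y.x3.snd = 0) :
    co 2 (mat (tripA E (trip_swap : Trip a c b (gi : Oct a b c) gl gj) y)) = 0 := by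
  have h : ∀ x : OctL E a c b, x.snd = 0 →
      (tripO E (trip_swap : Trip a c b (gi : Oct a b c) gl gj) x).fst.imJ = 0 := fun x hx => by
    rw [tripO_sw']
    change x.snd.re = 0
    rw [hx]
    rfl
  ext i j
  fin_cases i <;> fin_cases j
  · rfl
  · exact h y.x3 h3
  · exact neg_eq_zero.2 (h y.x2 h2)
  · exact neg_eq_zero.2 (h y.x3 h3)
  · rfl
  · exact h y.x1 h1
  · exact h y.x2 h2
  · exact neg_eq_zero.2 (h y.x1 h1)
  · rfl

theorem co3_trip {y : AlbL E a c b} (h1 : y.x1.snd = 0) (h2 : y.x2.snd = 0) (h3 : y.x3.snd = 0) :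
    co 3 (mat (tripA E (trip_swap : Trip a c b (gi : Oct a b c) gl gj) y)) = 0 := by
  have h : ∀ x : OctL E a c b, x.snd = 0 →
      (tripO E (trip_swap : Trip a c b (gi : Oct a b c) gl gj) x).fst.imK = 0 := fun x hx => by
    rw [tripO_sw']
    change x.snd.imI = 0
    rw [hx]
    rfl
  ext i j
  fin_cases i <;> fin_cases j
  · rfl
  · exact h y.x3 h3
  · exact neg_eq_zero.2 (h y.x2 h2)
  · exact neg_eq_zero.2 (h y.x3 h3)
  · rfl
  · exact h y.x1 h1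
  · exact h y.x2 h2
  · exact neg_eq_zero.2 (h y.x1 h1)
  · rfl

theorem InSw.co2 {y : AlbL E a c b} (h : InSw y) : co 2 (mat y) = 0 := by
  ext i j
  fin_cases i <;> fin_cases j
  · rfl
  · exact h.2.2.1
  · exact neg_eq_zero.2 h.2.1.1
  · exact neg_eq_zero.2 h.2.2.1
  · rfl
  · exact h.1.1
  · exact h.2.1.1
  · exact neg_eq_zero.2 h.1.1
  · rfl

theorem InSw.co3 {y : AlbL E a c b} (h : InSw y) : co 3 (mat y) = 0 := by
  ext i j
  fin_cases i <;> fin_cases j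
  · rfl
  · exact h.2.2.2.1
  · exact neg_eq_zero.2 h.2.1.2.1
  · exact neg_eq_zero.2 h.2.2.2.1
  · rfl
  · exact h.1.2.1
  · exact h.2.1.2.1
  · exact neg_eq_zero.2 h.1.2.1
  · rfl

theorem InSw.vec {y : AlbL E a c b} (h : InSw y) (i : Fin 3) :
    (Alb.vec y i).imJ = 0 ∧ (Alb.vec y i).imK = 0 := by
  fin_cases i
  · exact ⟨h.1.2.2.1, h.1.2.2.2⟩
  · exact ⟨h.2.1.2.2.1, h.2.1.2.2.2⟩
  · exact ⟨h.2.2.2.2.1, h.2.2.2.2.2⟩

end trip

section vec

variable {K : Type} [Field K] {a b : Kˣ}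

theorem imJ_mul' (u : Qt a b) (hJ : u.imJ = 0) (hK : u.imK = 0) (x y : K) :
    (u * (⟨x, 0, y, 0⟩ : Qt a b)).imJ = u.re * y ∧ (u * (⟨x, 0, y, 0⟩ : Qt a b)).imK =
      u.imI * y := by
  rw [QuaternionAlgebra.imJ_mul, QuaternionAlgebra.imK_mul, hJ, hK]
  constructor <;> ring

theorem vec_zero {v : Fin 3 → Qt a b} {x y : Matrix (Fin 3) (Fin 3) K} (hd : y.det ≠ 0)
    (hv : ∀ i, (v i).imJ = 0 ∧ (v i).imK = 0)
    (h : ∀ j, ((H64.row v * Xm a b x y) 0 j).imJ = 0 ∧ ((H64.row v * Xm a b x y) 0 j).imK = 0) :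
    v = 0 := by
  have e : ∀ j, (H64.row v * Xm a b x y) 0 j = v 0 * ⟨x 0 j, 0, y 0 j, 0⟩ +
      v 1 * ⟨x 1 j, 0, y 1 j, 0⟩ + v 2 * ⟨x 2 j, 0, y 2 j, 0⟩ := fun j => by
    rw [Matrix.mul_apply, Fin.sum_univ_three]
    rfl
  have hre : (fun i => (v i).re) ᵥ* y = 0 := by
    funext j
    have h1 := (h j).1
    rw [e, QuaternionAlgebra.imJ_add, QuaternionAlgebra.imJ_add,
      (imJ_mul' _ (hv 0).1 (hv 0).2 _ _).1, (imJ_mul' _ (hv 1).1 (hv 1).2 _ _).1,
      (imJ_mul' _ (hv 2).1 (hv 2).2 _ _).1] at h1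
    simp only [Matrix.vecMul, dotProduct, Fin.sum_univ_three, Pi.zero_apply]
    exact h1
  have him : (fun i => (v i).imI) ᵥ* y = 0 := by
    funext j
    have h1 := (h j).2
    rw [e, QuaternionAlgebra.imK_add, QuaternionAlgebra.imK_add,
      (imJ_mul' _ (hv 0).1 (hv 0).2 _ _).2, (imJ_mul' _ (hv 1).1 (hv 1).2 _ _).2,
      (imJ_mul' _ (hv 2).1 (hv 2).2 _ _).2] at h1
    simp only [Matrix.vecMul, dotProduct, Fin.sum_univ_three, Pi.zero_apply]
    exact h1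
  have k1 := Matrix.eq_zero_of_vecMul_eq_zero hd hre
  have k2 := Matrix.eq_zero_of_vecMul_eq_zero hd him
  funext i
  apply QuaternionAlgebra.ext
  · exact congrFun k1 i
  · exact congrFun k2 i
  · exact (hv i).1
  · exact (hv i).2

end vec

section main2

variable {k E : Type} [Field k] [NumberField k] [Field E] [NumberField E] [Algebra k E]
  {ρ σ : E ≃ₐ[k] E} {lam : Eˣ} {g : Fin 3 → Eˣ} {th s : E} {kap a b c : kˣ}
  {z : Matrix (Fin 3) (Fin 3) E}

theorem exists_X' (hab : Aniso (up E a) (up E c)) {x y z' : Matrix (Fin 3) (Fin 3) E}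
    (hx : E6O.InD0 ρ lam x) (hy : E6O.InD0 ρ lam y) (hx' : Sy σ g x) (hy' : Sy σ g y)
    (hc : x * y = y * x) (h1 : x * x - ((up E c : Eˣ) : E) • (y * y) = 1)
    (hxz : x * z' = z' * x) (hyz : y * z' = z' * y) (h0 : z'.trace = 0) (hd : dz z' ≠ 0) :
    ∃ X : (MQ E a c)ˣ, (X : MQ E a c) = Xm (up E a) (up E c) x y ∧
      ((X⁻¹ : (MQ E a c)ˣ) : MQ E a c) = Xm (up E a) (up E c) x (-y) ∧
      nq (X : MQ E a c) = 1 ∧
      (X : MQ E a c) * tm (up E a) (up E c) z' = tm (up E a) (up E c) z' * X ∧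
      ∃ φ ∈ GO ρ σ lam g a c b, ∀ x, φ x = Alb.act X 1 x := by
  obtain ⟨X, hX, hXi⟩ : ∃ X : (MQ E a c)ˣ, (X : MQ E a c) = Xm (up E a) (up E c) x y ∧
      ((X⁻¹ : (MQ E a c)ˣ) : MQ E a c) = Xm (up E a) (up E c) x (-y) :=
    ⟨XU (up E a) (up E c) x y hc h1, rfl, rfl⟩
  have hXz : (X : MQ E a c) * tm (up E a) (up E c) z' = tm (up E a) (up E c) z' * X := by
    rw [hX]
    exact Xm_comm_tm hxz hyz
  have hnq : nq (X : MQ E a c) = 1 := by rw [hX, nq_Xm, h1]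
  have hXn : nu (X : MQ E a c) = 1 := by
    rw [nu_eq_det hab h0 hd hXz, hnq, Matrix.det_one]
  have hXD : E6O.InD ρ lam (X : MQ E a c) := by
    rw [hX]
    exact inD_Xm hx hy
  have hXU : IsUn σ g 1 (X : MQ E a c) := by
    rw [hX]
    exact isUn_Xm hx' hy' hc h1
  exact ⟨X, hX, hXi, hnq, hXz, exists_actW hab hXD hXU hXn⟩

/-- The element `n₀` fixes the frame. -/
theorem n0_fix {X : (MQ E a c)ˣ} {z' : Matrix (Fin 3) (Fin 3) E} (h0 : z'.trace = 0)
    (hd : dz z' ≠ 0) (hnq : nq (X : MQ E a c) = 1)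
    (hXz : (X : MQ E a c) * tm (up E a) (up E c) z' = tm (up E a) (up E c) z' * X)
    {x : AlbL E a b c} (hx : InVs x)
    (hzx : tm (up E a) (up E b) z' * mat x = mat x * (tm (up E a) (up E b) z')ᴴ) :
    tripA E (trip_swap : Trip a c b (gi : Oct a b c) gl gj) (Alb.act X 1
      ((tripA E (trip_swap : Trip a c b (gi : Oct a b c) gl gj)).symm x)) = x := by
  obtain ⟨T, hT, hzT, hM⟩ := exists_T h0 hd (H64.mat_isHermitian x) hzx
  have hxT : x = ofF T := by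
    apply E6I.Gn.inV_ext hx
    · exact E6I.inV_ofF T
    · rw [hM, mat_ofF hT]
  have h2 := tripA_ofF' (E := E) (trip_swap : Trip a c b (gi : Oct a b c) gl gj) T
  have h3 : (tripA E (trip_swap : Trip a c b (gi : Oct a b c) gl gj)).symm (ofF T) = ofF T := by
    rw [LinearEquiv.symm_apply_eq, h2]
  rw [hxT, h3, act_ofF h0 hd hXz hT hzT, hnq, Matrix.one_mul, h2]

/-- The elements of `V` which `n₀` maps into `V`. -/
theorem n0_inter {X : (MQ E a c)ˣ} {x y : Matrix (Fin 3) (Fin 3) E}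
    (hXv : (X : MQ E a c) = Xm (up E a) (up E c) x y)
    (hXi : ((X⁻¹ : (MQ E a c)ˣ) : MQ E a c) = Xm (up E a) (up E c) x (-y)) (hdy : y.det ≠ 0)
    (hin : ∀ S S' : Matrix (Fin 3) (Fin 3) E, Sᵀ = S → S'ᵀ = -S' →
      y * S * xᵀ - x * S * yᵀ = 0 → -(y * S' * xᵀ) - x * S' * yᵀ = 0 → z * S = S * zᵀ ∧ S' = 0)
    {v : AlbL E a c b} (hy : InSw v) (hw : InSw (Alb.act X 1 v)) :
    tm (up E a) (up E b) z * mat (tripA E (trip_swap : Trip a c b (gi : Oct a b c) gl gj) v) =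
      mat (tripA E (trip_swap : Trip a c b (gi : Oct a b c) gl gj) v) *
        (tm (up E a) (up E b) z)ᴴ := by
  have hvec : Alb.vec v = 0 := by
    apply vec_zero (x := x) (y := -y) (by
      rw [Matrix.det_neg]
      exact mul_ne_zero (pow_ne_zero _ (neg_ne_zero.2 one_ne_zero)) hdy) hy.vec
    intro j
    have h2 := H64.row_vec_act X 1 v
    rw [H64.q1_one, Matrix.one_mul, hXi] at h2
    rw [← h2]
    exact hw.vec j
  have v1 : v.x1.snd = 0 := congrFun hvec 0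
  have v2 : v.x2.snd = 0 := congrFun hvec 1
  have v3 : v.x3.snd = 0 := congrFun hvec 2
  obtain ⟨k0, k1, -, -⟩ := co_isHermitian (H64.mat_isHermitian v)
  have hc := co_conj_Xm (x := x) (y := y) (M := mat v) rfl rfl hy.co2 hy.co3
  rw [← hXv, ← mat_act X 1 v, hw.co2, hw.co3] at hc
  obtain ⟨r0, r1⟩ := hin _ _ k0 k1 hc.1.symm hc.2.symm
  rw [comm_iff]
  intro i
  fin_cases i
  · change z * co 0 _ = co 0 _ * zᵀ
    rw [co0_trip, r0]
  · change z * co 1 _ = co 1 _ * zᵀ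
    rw [co1_trip, r1, Matrix.mul_zero, Matrix.zero_mul]
  · change z * co 2 _ = co 2 _ * zᵀ
    rw [co2_trip v1 v2 v3, Matrix.mul_zero, Matrix.zero_mul]
  · change z * co 3 _ = co 3 _ * zᵀ
    rw [co3_trip v1 v2 v3, Matrix.mul_zero, Matrix.zero_mul]

theorem W_D0 (W : WH ρ σ lam g th s kap a b c) (hz : E6O.InD0 ρ lam z)
    (hΔ : De z ((up E c : Eˣ) : E) ≠ 0) (hns : ∀ t : E, z ≠ t • (1 : Matrix (Fin 3) (Fin 3) E)) :
    (De z (up E c : Eˣ)).det ≠ 0 ∧ (yz z (up E c : Eˣ)).det ≠ 0 ∧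
      E6O.InD0 ρ lam (xz z (up E c : Eˣ)) ∧ E6O.InD0 ρ lam (yz z (up E c : Eˣ)) := by
  have hzK : E6I.InD0 (rhoK ρ) (unK W.ρlam) z := (inD0_iffK W.ρlam).2 hz
  have hρC : rhoK ρ ((up E c : Eˣ) : E) = ((up E c : Eˣ) : E) := ρ.commutes _
  have hρ3 : ∀ x, rhoK ρ (rhoK ρ (rhoK ρ x)) = x := W.ρ3
  have hN : ∀ x : E, x * rhoK ρ x * rhoK ρ (rhoK ρ x) ≠
    algebraMap (KK ρ) E (unK W.ρlam : (KK ρ)ˣ) := W.hlam
  have hdΔ : (De z (up E c : Eˣ)).det ≠ 0 := E6O.det_ne hρ3 hN (D0_De hzK hρC) hΔ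
  have hz0 : z ≠ 0 := fun h => hns 0 (by rw [h, zero_smul])
  have hy := D0_yz hzK hρC hdΔ
  refine ⟨hdΔ, ?_, (inD0_iffK W.ρlam).1 (D0_xz hzK hρC hdΔ), (inD0_iffK W.ρlam).1 hy⟩
  apply E6O.det_ne hρ3 hN hy
  intro h
  have h1 := De_mul_yz hdΔ
  rw [h, Matrix.mul_zero] at h1
  exact hz0 ((smul_eq_zero.1 h1.symm).resolve_left two_ne_zero)

theorem W_inter (W : WH ρ σ lam g th s kap a b c) (hz : E6O.InD0 ρ lam z)
    (hd : (De z (up E c : Eˣ)).det ≠ 0) (hns : ∀ t : E, z ≠ t • (1 : Matrix (Fin 3) (Fin 3) E))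
    (S S' : Matrix (Fin 3) (Fin 3) E) (hS : Sᵀ = S) (hS' : S'ᵀ = -S')
    (e2 : yz z (up E c : Eˣ) * S * (xz z (up E c : Eˣ))ᵀ -
      xz z (up E c : Eˣ) * S * (yz z (up E c : Eˣ))ᵀ = 0)
    (e3 : -(yz z (up E c : Eˣ) * S' * (xz z (up E c : Eˣ))ᵀ) -
      xz z (up E c : Eˣ) * S' * (yz z (up E c : Eˣ))ᵀ = 0) : z * S = S * zᵀ ∧ S' = 0 := by
  have hzK : E6I.InD0 (rhoK ρ) (unK W.ρlam) z := (inD0_iffK W.ρlam).2 hz
  have hC0 : ((up E c : Eˣ) : E) ≠ 0 := Units.ne_zero _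
  have hρC : rhoK ρ ((up E c : Eˣ) : E) = ((up E c : Eˣ) : E) := ρ.commutes _
  have hρ3 : ∀ x, rhoK ρ (rhoK ρ (rhoK ρ x)) = x := W.ρ3
  have hN : ∀ x : E, x * rhoK ρ x * rhoK ρ (rhoK ρ x) ≠
    algebraMap (KK ρ) E (unK W.ρlam : (KK ρ)ˣ) := W.hlam
  exact inter two_ne_zero hd (not_scalar_det hρ3 hN hzK hns hρC hC0)
    (not_scalar_det hρ3 hN hzK hns (by rw [map_neg, hρC]) (neg_ne_zero.2 hC0))
    (trace_sub_det hρ3 hN hzK hns) hS hS' e2 e3

theorem exists_n0_aux (W : WH ρ σ lam g th s kap a b c) (hz : E6O.InD0 ρ lam z) (hS : Sy σ g z)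
    (hns : ∀ t : E, z ≠ t • (1 : Matrix (Fin 3) (Fin 3) E))
    (hΔ : De z ((up E c : Eˣ) : E) ≠ 0) :
    ∃ n0 ∈ GO ρ σ lam g a b c,
      (∀ x : AlbL E a b c, InVs x →
        tm (up E a) (up E b) z * mat x = mat x * (tm (up E a) (up E b) z)ᴴ → n0 x = x) ∧
      (∀ x : AlbL E a b c, InVs x → InVs (n0 x) →
        tm (up E a) (up E b) z * mat x = mat x * (tm (up E a) (up E b) z)ᴴ) := by
  obtain ⟨z', s0, -, h0, hd, ez⟩ := E6I.H637.exists_shift W.HI ((inD0_iffK W.ρlam).2 hz) hns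
  obtain ⟨hdΔ, hdy, hDx, hDy⟩ := W_D0 W hz hΔ hns
  have hσC : σ ((up E c : Eˣ) : E) = ((up E c : Eˣ) : E) := σ.commutes _
  have hcomm : ∀ {m : Matrix (Fin 3) (Fin 3) E}, m * z = z * m → m * z' = z' * m := by
    intro m hm
    have e : z' = z - s0 • (1 : Matrix (Fin 3) (Fin 3) E) := by rw [ez]; abel
    rw [e, Matrix.mul_sub, Matrix.sub_mul, hm, Matrix.mul_smul, Matrix.smul_mul, Matrix.mul_one,
      Matrix.one_mul]
  obtain ⟨X, hXv, hXi, hnq, hXz, φ, hφ, hφx⟩ := exists_X' (b := b) (aniso_swap W.hdiv) hDx hDy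
    (Sy_xz hσC hS hdΔ) (Sy_yz hσC hS hdΔ) (xy_comm hdΔ) (xy_one hdΔ) (hcomm (xz_comm hdΔ))
    (hcomm (yz_comm hdΔ)) h0 hd
  refine ⟨_, conj_trip (trip_swap : Trip a c b (gi : Oct a b c) gl gj) hφ, fun x hx hzx => ?_,
    fun x hx hnx => ?_⟩
  · have hzx' : tm (up E a) (up E b) z' * mat x = mat x * (tm (up E a) (up E b) z')ᴴ :=
      comm_shift (z := z) (t := 1) (u := s0) (by rw [one_smul]; exact ez) hzx
    rw [LinearEquiv.trans_apply, LinearEquiv.trans_apply, hφx]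
    exact n0_fix h0 hd hnq hXz hx hzx'
  · obtain ⟨y, rfl⟩ := (tripA E (trip_swap : Trip a c b (gi : Oct a b c) gl gj)).surjective x
    rw [LinearEquiv.trans_apply, LinearEquiv.trans_apply, LinearEquiv.symm_apply_apply,
      hφx] at hnx
    exact n0_inter hXv hXi hdy (W_inter W hz hdΔ hns) ((inVs_tripA y).1 hx)
      ((inVs_tripA _).1 hnx)

/-- The element `n₀` attached to a symmetric element of the cyclic algebra: it fixes the frame of
`z` pointwise, and the elements of `V` which it maps into `V` are those of the frame. -/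
theorem exists_n0 (W : WH ρ σ lam g th s kap a b c) (hz : E6O.InD0 ρ lam z)
    (hzs : adjM σ g (toMQ z : MQ E a b) = toMQ z)
    (hns : ∀ t : E, z ≠ t • (1 : Matrix (Fin 3) (Fin 3) E)) :
    ∃ n0 ∈ GO ρ σ lam g a b c,
      (∀ x : AlbL E a b c, InVs x →
        (toMQ z : MQ E a b) * mat x = mat x * (toMQ z : MQ E a b)ᴴ → n0 x = x) ∧
      (∀ x : AlbL E a b c, InVs x → InVs (n0 x) →
        (toMQ z : MQ E a b) * mat x = mat x * (toMQ z : MQ E a b)ᴴ) := by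
  have hS : Sy σ g z := Sy_of_adjM hzs
  have hC0 : ((up E c : Eˣ) : E) ≠ 0 := Units.ne_zero _
  by_cases hΔ : De z ((up E c : Eˣ) : E) ≠ 0
  · exact exists_n0_aux W hz hS hns hΔ
  · push Not at hΔ
    have hz2 : E6O.InD0 ρ lam ((2 : E) • z) := by
      have h := D0_smul (ρ := rhoK ρ) (lam := unK W.ρlam) (t := (2 : E)) (map_ofNat _ 2)
        (x := z) hz
      exact h
    have hS2 : Sy σ g ((2 : E) • z) := Sy_smul (map_ofNat σ 2) hS
    have hns2 : ∀ t : E, (2 : E) • z ≠ t • (1 : Matrix (Fin 3) (Fin 3) E) := by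
      intro t h
      apply hns (2⁻¹ * t)
      rw [mul_smul, ← h, smul_smul, inv_mul_cancel₀ two_ne_zero, one_smul]
    have hΔ2 : De ((2 : E) • z) ((up E c : Eˣ) : E) ≠ 0 := by
      intro h
      rw [De, sub_eq_zero] at h hΔ
      rw [Matrix.smul_mul, Matrix.mul_smul, hΔ, smul_smul, smul_smul] at h
      have h2 := congrFun (congrFun h 0) 0
      simp only [Matrix.smul_apply, Matrix.one_apply_eq, smul_eq_mul, mul_one] at h2
      have h3 : (3 : E) * ((up E c : Eˣ) : E) = 0 := by linear_combination h2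
      exact hC0 ((mul_eq_zero.1 h3).resolve_left three_ne_zero)
    obtain ⟨n0, hn0, h1, h2⟩ := exists_n0_aux W hz2 hS2 hns2 hΔ2
    refine ⟨n0, hn0, fun x hx hzx => h1 x hx ?_, fun x hx hnx => ?_⟩
    · exact comm_shift (z := z) (z' := (2 : E) • z) (t := 2) (u := 0)
        (by rw [zero_smul, add_zero]) hzx
    · exact comm_shift (z := (2 : E) • z) (z' := z) (t := 2⁻¹) (u := 0)
        (by rw [zero_smul, add_zero, smul_smul, inv_mul_cancel₀ two_ne_zero, one_smul])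
        (h2 x hx hnx)

end main2

end Vale.Agent.P011.E6W.H964
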