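import Vale.Agent.P011.E6W.H684.PDefs
import Vale.Agent.P011.E6W.H183.BarW
import Vale.Agent.P011.E6W.H196.Slot
import Vale.Agent.P011.One.Quat

/-!
Block E6W (S2): the common slot `u`, a pure element `w'` with square `u` in the centraliser of the
cubic element, and a pure element `y'` which anticommutes with `w'`.
-/

open NumberField Matrix Polynomial Module

set_option linter.unusedSectionVars false

namespace Vale.Agent.P011.E6W.H964

open Vale.Agent.P011.MPQ hiding mat
open Vale.Agent.P011.D4 Vale.Agent.P011.D4.Oct Vale.Agent.P011.E6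
open Vale.Agent.P011.E6I (MQ toMQ InVs)
open Vale.Agent.P011.E6O (InD)
open Vale.Agent.P011.E6W.H183 (adjM WH BW toW ez FrW exists_frW toW_ez toW_star toW_inj
  toW_injective inD_toW ofW toW_ofW toW_algebraMap_k)
open Vale.Agent.P011.One (Cen mem_cen exists_qhom QFr)

/-- A number field which contains two square roots. -/
theorem exists_two_roots {k : Type} [Field k] [NumberField k] (x y : k) :
    ∃ (M : Type) (_ : Field M) (_ : NumberField M) (_ : Algebra k M) (r s : M),
      r * r = algebraMap k M x ∧ s * s = algebraMap k M y := by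
  obtain ⟨r, hr⟩ := IsAlgClosed.exists_pow_nat_eq (algebraMap k (AlgebraicClosure k) x)
    (n := 2) (by norm_num)
  obtain ⟨s, hs⟩ := IsAlgClosed.exists_pow_nat_eq (algebraMap k (AlgebraicClosure k) y)
    (n := 2) (by norm_num)
  have hfd : FiniteDimensional k (IntermediateField.adjoin k ({r, s} : Set (AlgebraicClosure k))) :=
    IntermediateField.finiteDimensional_adjoin
      (fun z _ => (Algebra.IsAlgebraic.isAlgebraic z).isIntegral)
  have hnf : NumberField (IntermediateField.adjoin k ({r, s} : Set (AlgebraicClosure k))) :=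
    { to_charZero := charZero_of_injective_algebraMap (algebraMap k
        (IntermediateField.adjoin k ({r, s} : Set (AlgebraicClosure k)))).injective
      to_finiteDimensional := Module.Finite.trans k _ }
  refine ⟨IntermediateField.adjoin k ({r, s} : Set (AlgebraicClosure k)), inferInstance, hnf,
    inferInstance, ⟨r, IntermediateField.subset_adjoin k _ (by simp)⟩,
    ⟨s, IntermediateField.subset_adjoin k _ (by simp)⟩, Subtype.ext ?_, Subtype.ext ?_⟩
  · change r * r = algebraMap k (AlgebraicClosure k) x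
    rw [← hr, pow_two]
  · change s * s = algebraMap k (AlgebraicClosure k) y
    rw [← hs, pow_two]

theorem nsq_of {k M : Type} [Field k] [Field M] [Algebra k M] {u x : k} {r : M}
    (hr : r * r = algebraMap k M x) (hx : x ≠ 0) (hu : ∀ z : M, z * z ≠ algebraMap k M u) :
    ¬ IsSquare (u * x) := by
  rintro ⟨y, hy⟩
  apply hu (algebraMap k M y / r)
  rw [div_mul_div_comm, hr, ← map_mul, ← hy, map_mul, mul_div_assoc,
    div_self ((_root_.map_ne_zero _).mpr hx), mul_one]

/-- A pure element which anticommutes with a given pure element. -/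
theorem exists_anti {F : Type} [Field F] {α β : Fˣ} {w : Qt α β} (hw : w.re = 0) (hw0 : w ≠ 0) :
    ∃ (y : Qt α β) (η : F), y.re = 0 ∧ w * y = -(y * w) ∧ y * y = algebraMap F (Qt α β) η ∧
      ∀ P : F →+* ℝ, P α < 0 → P β < 0 → P η < 0 := by
  have key : ∀ y1 y2 y3 : F, α * w.imI * y1 + β * w.imJ * y2 - α * β * w.imK * y3 = 0 →
      (y1 ≠ 0 ∨ y2 ≠ 0 ∨ y3 ≠ 0) →
      ∃ (y : Qt α β) (η : F), y.re = 0 ∧ w * y = -(y * w) ∧ y * y = algebraMap F (Qt α β) η ∧
      ∀ P : F →+* ℝ, P α < 0 → P β < 0 → P η < 0 := by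
    intro y1 y2 y3 h hne
    refine ⟨⟨0, y1, y2, y3⟩, α * y1 ^ 2 + β * y2 ^ 2 - α * β * y3 ^ 2, rfl, ?_, ?_, ?_⟩
    · obtain ⟨w0, w1, w2, w3⟩ := w
      change w0 = 0 at hw
      subst hw
      rw [QuaternionAlgebra.mk_mul_mk, QuaternionAlgebra.mk_mul_mk, QuaternionAlgebra.neg_mk]
      simp only at h
      ext
      · change _ = -_
        linear_combination 2 * h
      · change _ = -_
        ring
      · change _ = -_
        ring
      · change _ = -_
        ring
    · rw [QuaternionAlgebra.mk_mul_mk]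
      ext
      · change _ = α * y1 ^ 2 + β * y2 ^ 2 - α * β * y3 ^ 2
        ring
      · change _ = (0 : F)
        ring
      · change _ = (0 : F)
        ring
      · change _ = (0 : F)
        ring
    · intro P hα hβ
      have e : P (α * y1 ^ 2 + β * y2 ^ 2 - α * β * y3 ^ 2) =
          P α * P y1 ^ 2 + P β * P y2 ^ 2 - P α * P β * P y3 ^ 2 := by
        simp only [map_add, map_sub, map_mul, map_pow]
      rw [e]
      have hαβ : 0 < P α * P β := mul_pos_of_neg_of_neg hα hβ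
      rcases hne with h1 | h1 | h1
      · have h2 : 0 < P y1 ^ 2 := by
          have : P y1 ≠ 0 := (map_ne_zero P).mpr h1
          positivity
        nlinarith [sq_nonneg (P y2), sq_nonneg (P y3), mul_pos (neg_pos.mpr hα) h2,
          mul_nonneg (neg_pos.mpr hβ).le (sq_nonneg (P y2)), mul_nonneg hαβ.le (sq_nonneg (P y3))]
      · have h2 : 0 < P y2 ^ 2 := by
          have : P y2 ≠ 0 := (map_ne_zero P).mpr h1
          positivity
        nlinarith [sq_nonneg (P y1), sq_nonneg (P y3), mul_pos (neg_pos.mpr hβ) h2,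
          mul_nonneg (neg_pos.mpr hα).le (sq_nonneg (P y1)), mul_nonneg hαβ.le (sq_nonneg (P y3))]
      · have h2 : 0 < P y3 ^ 2 := by
          have : P y3 ≠ 0 := (map_ne_zero P).mpr h1
          positivity
        nlinarith [sq_nonneg (P y1), sq_nonneg (P y2), mul_pos hαβ h2,
          mul_nonneg (neg_pos.mpr hα).le (sq_nonneg (P y1)),
          mul_nonneg (neg_pos.mpr hβ).le (sq_nonneg (P y2))]
  by_cases h2 : w.imJ = 0
  · by_cases h3 : w.imK = 0
    · exact key 0 1 0 (by rw [h2, h3]; ring) (Or.inr (Or.inl one_ne_zero))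
    · exact key 0 (α * w.imK) w.imJ (by ring) (Or.inr (Or.inl (mul_ne_zero α.ne_zero h3)))
  · exact key 0 (α * w.imK) w.imJ (by ring) (Or.inr (Or.inr h2))

/-- The real embeddings of a cubic field. -/
theorem exists_emb {k F : Type} [Field k] [Field F] [Algebra k F] {x0 : F}
    (gen : ∀ y : F, ∃ t : Fin 3 → k, y = ez x0 t) (ind : ∀ t : Fin 3 → k, ez x0 t = 0 → t = 0)
    {p : Fin 3 → k} (hp : x0 ^ 3 = ez x0 p) (τ : k →+* ℝ) (x : ℝ)
    (hx : x ^ 3 = τ (p 2) * x ^ 2 + τ (p 1) * x + τ (p 0)) :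
    ∃ P : F →+* ℝ, (∀ t : k, P (algebraMap k F t) = τ t) ∧ P x0 = x ∧
      ∀ t : Fin 3 → k, P (ez x0 t) = τ (t 0) + τ (t 1) * x + τ (t 2) * x ^ 2 := by
  obtain ⟨f, hf⟩ : ∃ f : k[X], f = X ^ 3 - (C (p 0) + C (p 1) * X + C (p 2) * X ^ 2) := ⟨_, rfl⟩
  have hfm : f.Monic := by
    rw [hf]
    monicity!
  have hfd : f.natDegree = 3 := by
    rw [hf]
    compute_degree!
  have hez : ∀ t : Fin 3 → k, aeval x0 (C (t 0) + C (t 1) * X + C (t 2) * X ^ 2) = ez x0 t := by
    intro t
    rw [ez, map_add, map_add, map_mul, map_mul, map_pow, aeval_X, aeval_C, aeval_C, aeval_C,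
      Algebra.smul_def, Algebra.smul_def, Algebra.smul_def, mul_one]
  have hsurj : Function.Surjective ((aeval x0 : k[X] →ₐ[k] F) : k[X] →+* F) := by
    intro y
    obtain ⟨t, rfl⟩ := gen y
    exact ⟨_, hez t⟩
  have hf0 : aeval x0 f = 0 := by
    rw [hf, map_sub, hez, map_pow, aeval_X, hp, sub_self]
  have hfx : eval₂ τ x f = 0 := by
    rw [hf]
    simp only [eval₂_sub, eval₂_add, eval₂_mul, eval₂_pow, eval₂_X, eval₂_C]
    rw [hx]
    ring
  have hsum : ∀ q : k[X], q.natDegree < 3 →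
      q = C (q.coeff 0) + C (q.coeff 1) * X + C (q.coeff 2) * X ^ 2 := by
    intro q hq
    have h1 := Polynomial.as_sum_range_C_mul_X_pow' q hq
    rw [Finset.sum_range_succ, Finset.sum_range_succ, Finset.sum_range_succ,
      Finset.sum_range_zero, zero_add, pow_zero, mul_one, pow_one] at h1
    exact h1
  have hker : RingHom.ker ((aeval x0 : k[X] →ₐ[k] F) : k[X] →+* F) ≤
      RingHom.ker (eval₂RingHom τ x) := by
    intro q hq
    rw [RingHom.mem_ker] at hq ⊢
    have hq' : aeval x0 q = 0 := hq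
    have h1 := modByMonic_add_div q f
    have h2 : (q %ₘ f).natDegree < 3 := by
      rw [← hfd]
      apply natDegree_modByMonic_lt q hfm
      intro h
      rw [h, natDegree_one] at hfd
      exact absurd hfd (by norm_num)
    have h3 : aeval x0 (q %ₘ f) = 0 := by
      have h4 := congrArg (aeval x0) h1
      rw [map_add, map_mul, hf0, zero_mul, add_zero, hq'] at h4
      exact h4
    have h5 := hsum _ h2
    have h6 : (q %ₘ f) = 0 := by
      rw [h5] at h3
      have h7 := ind ![(q %ₘ f).coeff 0, (q %ₘ f).coeff 1, (q %ₘ f).coeff 2]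
        (by rw [← hez]; exact h3)
      have e0 : (q %ₘ f).coeff 0 = 0 := congrFun h7 0
      have e1 : (q %ₘ f).coeff 1 = 0 := congrFun h7 1
      have e2 : (q %ₘ f).coeff 2 = 0 := congrFun h7 2
      rw [h5, e0, e1, e2, map_zero, zero_mul, zero_mul, add_zero, add_zero]
    rw [← h1, h6, zero_add]
    change eval₂ τ x (f * _) = 0
    rw [eval₂_mul, hfx, zero_mul]
  obtain ⟨P, hP⟩ : ∃ P : F →+* ℝ, ∀ q : k[X], P (aeval x0 q) = eval₂ τ x q := by
    refine ⟨((aeval x0 : k[X] →ₐ[k] F) : k[X] →+* F).liftOfSurjective hsurj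
      ⟨eval₂RingHom τ x, hker⟩, fun q => ?_⟩
    exact RingHom.liftOfSurjective_comp_apply _ hsurj _ q
  refine ⟨P, fun t => ?_, ?_, fun t => ?_⟩
  · rw [← aeval_C (x := x0), hP, eval₂_C]
  · have h1 := hP X
    rwa [aeval_X, eval₂_X] at h1
  · rw [← hez, hP]
    simp only [eval₂_add, eval₂_mul, eval₂_pow, eval₂_X, eval₂_C]

variable {k E : Type} [Field k] [NumberField k] [Field E] [NumberField E] [Algebra k E]
  {ρ σ : E ≃ₐ[k] E} {lam : Eˣ} {g : Fin 3 → Eˣ} {th s : E} {kap a b c : kˣ}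

/-- **(S2)** The common slot. -/
theorem exists_uw (W : WH ρ σ lam g th s kap a b c) {z i₁ j₁ : MQ E a b} {v : AlbL E a b c}
    {p₂ p₁ p₀ : k} {A B : Fin 3 → k}
    (C : H684.Cert2 ρ σ lam g (kap : k) z i₁ j₁ v p₂ p₁ p₀ A B) :
    ∃ (u : kˣ) (w : Qt a b) (w' y' : MQ E a b) (t : Fin 3 → k), w.re = 0 ∧
      w * w = (u : k) • (1 : Qt a b) ∧ (∀ τ : k →+* ℝ, τ u < 0 ↔ τ a < 0 ∧ τ b < 0) ∧
      ¬ IsSquare (u : k) ∧ ¬ IsSquare ((u : k) * kap) ∧ ¬ IsSquare ((u : k) * dsc p₂ p₁ p₀) ∧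
      ¬ IsSquare ((u : k) * kap * dsc p₂ p₁ p₀) ∧ InD ρ lam w' ∧ InD ρ lam y' ∧
      w' * z = z * w' ∧ y' * z = z * y' ∧ adjM σ g w' = -w' ∧ adjM σ g y' = -y' ∧
      w' * w' = algebraMap k E (u : k) • (1 : MQ E a b) ∧ w' * y' = -(y' * w') ∧
      y' * y' = algebraMap k E (t 0) • (1 : MQ E a b) + algebraMap k E (t 1) • z +
        algebraMap k E (t 2) • z ^ 2 ∧
      ∀ (τ : k →+* ℝ) (x : ℝ), x ^ 3 = τ p₂ * x ^ 2 + τ p₁ * x + τ p₀ → τ kap < 0 → τ a < 0 →
        τ b < 0 → τ (t 0) + τ (t 1) * x + τ (t 2) * x ^ 2 < 0 := by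
  -- the cubic field
  have hcub : z ^ 3 = ez z (fun i => algebraMap k E ((![p₀, p₁, p₂] : Fin 3 → k) i)) := by
    rw [C.cub, ez]
    change _ = algebraMap k E p₀ • (1 : MQ E a b) + algebraMap k E p₁ • z +
      algebraMap k E p₂ • z ^ 2
    abel
  obtain ⟨F, _, _, _, ι, x0, H, hx, h3⟩ := exists_frW W C.inD C.sym C.inV C.ne C.com
    (p := ![p₀, p₁, p₂]) hcub (by
      intro t ht
      obtain ⟨e0, e1, e2⟩ := C.ind _ _ _ ht
      funext i
      fin_cases i
      · exact (_root_.map_eq_zero _).mp e0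
      · exact (_root_.map_eq_zero _).mp e1
      · exact (_root_.map_eq_zero _).mp e2)
  have hιinj : Function.Injective ι := ι.toRingHom.injective
  have hpx : x0 ^ 3 = ez x0 ![p₀, p₁, p₂] := by
    apply hιinj
    apply toW_injective W
    rw [toW_ez, map_pow, map_pow, hx, hcub]
  have hemb := fun τ x hx => exists_emb H.gen H.ind hpx τ x hx
  -- the quaternion algebra
  obtain ⟨α, hα⟩ : ∃ α : Fˣ, (α : F) = ez x0 A :=
    ⟨Units.mk0 _ fun h => C.Ane (H.ind A h), rfl⟩
  obtain ⟨β, hβ⟩ : ∃ β : Fˣ, (β : F) = ez x0 B :=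
    ⟨Units.mk0 _ fun h => C.Bne (H.ind B h), rfl⟩
  obtain ⟨I, hI⟩ : ∃ I : BW W, toW W I = i₁ := ⟨ofW W C.inDi, rfl⟩
  obtain ⟨J, hJ⟩ : ∃ J : BW W, toW W J = j₁ := ⟨ofW W C.inDj, rfl⟩
  have hIc : I ∈ Cen ι := by
    rw [H.mem_iff, hI, hx]
    exact C.comi
  have hJc : J ∈ Cen ι := by
    rw [H.mem_iff, hJ, hx]
    exact C.comj
  have hfr : QFr ι α β I J :=
    { sym := fun x => by
        obtain ⟨t, rfl⟩ := H.gen x
        apply toW_injective W
        rw [toW_star, toW_ez, H183.ez_fix H.adj]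
      si := by
        apply toW_injective W
        rw [toW_star, map_neg, hI, C.antii]
      sj := by
        apply toW_injective W
        rw [toW_star, map_neg, hJ, C.antij]
      ii := by
        apply toW_injective W
        rw [map_mul, hI, hα, toW_ez, hx, C.sqi]
        rfl
      jj := by
        apply toW_injective W
        rw [map_mul, hJ, hβ, toW_ez, hx, C.sqj]
        rfl
      ij := by
        apply toW_injective W
        rw [map_mul, map_neg, map_mul, hI, hJ, C.anti]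
      ci := mem_cen.mp hIc
      cj := mem_cen.mp hJc }
  obtain ⟨φ, hφ⟩ := exists_qhom hfr
  -- the slot
  obtain ⟨M, _, _, _, r1, r2, hr1, hr2⟩ := exists_two_roots (kap : k) (dsc p₂ p₁ p₀)
  obtain ⟨u, ⟨w, hw, hww⟩, ⟨w1, hw1, hww1⟩, hreal, hM⟩ :=
    H196.exists_slot (k := k) (L := F) (M := M) h3 a b α β (by
      intro P hPα hPβ
      have e : ∀ t : Fin 3 → k, P (ez x0 t) = P (algebraMap k F (t 0)) +
          P (algebraMap k F (t 1)) * P x0 + P (algebraMap k F (t 2)) * P x0 ^ 2 := by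
        intro t
        rw [ez, map_add, map_add, Algebra.smul_def, Algebra.smul_def, Algebra.smul_def, mul_one,
          map_mul, map_mul, map_pow]
      rw [hα, e] at hPα
      rw [hβ, e] at hPβ
      have e3 := congrArg P hpx
      rw [map_pow, e] at e3
      exact C.real (P.comp (algebraMap k F)) (P x0) (by
        rw [e3]
        change P (algebraMap k F p₀) + P (algebraMap k F p₁) * P x0 +
          P (algebraMap k F p₂) * P x0 ^ 2 = P (algebraMap k F p₂) * P x0 ^ 2 +
          P (algebraMap k F p₁) * P x0 + P (algebraMap k F p₀)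
        ring) hPα hPβ)
  have hu0 : (u : k) ≠ 0 := u.ne_zero
  have hd0 : dsc p₂ p₁ p₀ ≠ 0 := fun h => C.dsc (by rw [h]; exact ⟨0, by rw [mul_zero]⟩)
  have hw10 : w1 ≠ 0 := by
    rintro rfl
    rw [mul_zero] at hww1
    have h1 := congrArg QuaternionAlgebra.re hww1
    change (0 : F) = algebraMap k F u * 1 at h1
    rw [mul_one] at h1
    exact hu0 ((_root_.map_eq_zero _).mp h1.symm)
  obtain ⟨y1, η, hy1, hwy, hyy, hη⟩ := exists_anti hw1 hw10
  obtain ⟨t, ht⟩ := H.gen η
  have hφι : ∀ x : F, φ (algebraMap F (Qt α β) x) = ι x := by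
    intro x
    rw [hφ]
    change ι x + ι 0 * I + ι 0 * J + ι 0 * (I * J) = ι x
    rw [map_zero, zero_mul, zero_mul, zero_mul, add_zero, add_zero, add_zero]
  have hφs : ∀ q : Qt α β, q.re = 0 → star (φ q) = -φ q := by
    intro q hq
    rw [hφ, hq, map_zero, zero_add, star_add, star_add, star_mul, star_mul, star_mul, star_mul,
      hfr.sym, hfr.sym, hfr.sym, hfr.si, hfr.sj, neg_mul_neg, neg_mul, neg_mul, ← hfr.ci,
      ← hfr.cj]
    have e : J * I * ι q.imK = -(ι q.imK * (I * J)) := by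
      rw [hfr.ij, mul_neg, neg_neg, mul_assoc, ← hfr.ci, ← mul_assoc, ← hfr.cj, mul_assoc]
    rw [e]
    abel
  have hφc : ∀ q : Qt α β, φ q ∈ Cen ι := by
    intro q
    rw [hφ]
    have h1 : ∀ x : F, ι x ∈ Cen ι := fun x => mem_cen.mpr fun y => by
      rw [← map_mul, mul_comm, map_mul]
    exact add_mem (add_mem (add_mem (h1 _) (mul_mem (h1 _) hIc)) (mul_mem (h1 _) hJc))
      (mul_mem (h1 _) (mul_mem hIc hJc))
  refine ⟨u, w, toW W (φ w1), toW W (φ y1), t, hw, hww, hreal, ?_, ?_, ?_, ?_, inD_toW W _,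
    inD_toW W _, ?_, ?_, ?_, ?_, ?_, ?_, ?_, ?_⟩
  · have h1 : (u : k) = u * 1 := (mul_one _).symm
    rw [h1]
    exact nsq_of (r := (1 : M)) (by rw [map_one, mul_one]) one_ne_zero hM
  · exact nsq_of hr1 kap.ne_zero hM
  · exact nsq_of hr2 hd0 hM
  · rw [mul_assoc]
    exact nsq_of (r := r1 * r2) (by rw [map_mul, ← hr1, ← hr2]; ring)
      (mul_ne_zero kap.ne_zero hd0) hM
  · have h1 := H.mem_iff.mp (hφc w1)
    rwa [hx] at h1
  · have h1 := H.mem_iff.mp (hφc y1)
    rwa [hx] at h1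
  · rw [← toW_star, hφs _ hw1, map_neg]
  · rw [← toW_star, hφs _ hy1, map_neg]
  · rw [← map_mul, ← map_mul, hww1, Algebra.smul_def, mul_one, hφι, AlgHom.commutes,
      toW_algebraMap_k]
  · rw [← map_mul, ← map_mul, hwy, map_neg, map_neg, map_mul, map_mul]
  · rw [← map_mul, ← map_mul, hyy, hφι, ht, toW_ez, hx]
    rfl
  · intro τ x hτx hk ha hb
    obtain ⟨P, hP1, hP2, hP3⟩ := hemb τ x hτx
    rw [← hP3, ← ht]
    obtain ⟨h1, h2⟩ := C.real' τ x hτx hk ha hb
    rw [← hP3 A, ← hα] at h1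
    rw [← hP3 B, ← hβ] at h2
    exact hη P h1 h2

end Vale.Agent.P011.E6W.H964
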