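import Mathlib

/-!
Block E6W (helper964): antisymmetric matrices of degree three and intertwining relations.
-/

open Matrix

namespace Vale.Agent.P011.E6W.H964

variable {F : Type} [Field F]

/-- The vector of an antisymmetric matrix of degree three. -/
def vc (S : Matrix (Fin 3) (Fin 3) F) : Fin 3 → F := ![S 2 1, S 0 2, S 1 0]

theorem skew_entries (h2 : (2 : F) ≠ 0) {S : Matrix (Fin 3) (Fin 3) F} (hS : Sᵀ = -S) :
    S 0 0 = 0 ∧ S 1 1 = 0 ∧ S 2 2 = 0 ∧ S 0 1 = -S 1 0 ∧ S 1 2 = -S 2 1 ∧ S 2 0 = -S 0 2 := by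
  have h : ∀ i j, S j i = -S i j := fun i j => congrFun (congrFun hS i) j
  have hd : ∀ i, S i i = 0 := fun i => by
    have h1 := h i i
    have h3 : (2 : F) * S i i = 0 := by linear_combination h1
    exact (mul_eq_zero.1 h3).resolve_left h2
  exact ⟨hd 0, hd 1, hd 2, h 1 0, h 2 1, h 0 2⟩

theorem eq_zero_of_vc (h2 : (2 : F) ≠ 0) {S : Matrix (Fin 3) (Fin 3) F} (hS : Sᵀ = -S)
    (h : vc S = 0) : S = 0 := by
  obtain ⟨h00, h11, h22, h01, h12, h20⟩ := skew_entries h2 hS
  have k0 : S 2 1 = 0 := congrFun h 0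
  have k1 : S 0 2 = 0 := congrFun h 1
  have k2 : S 1 0 = 0 := congrFun h 2
  ext i j
  fin_cases i <;> fin_cases j <;> simp [h00, h11, h22, h01, h12, h20, k0, k1, k2]

/-- The relation `r S + S rᵀ = 0`. -/
theorem eq_zero_of_add (h2 : (2 : F) ≠ 0) {r S : Matrix (Fin 3) (Fin 3) F} (hS : Sᵀ = -S)
    (h : r * S + S * rᵀ = 0) (hd : (r.trace • (1 : Matrix (Fin 3) (Fin 3) F) - r).det ≠ 0) :
    S = 0 := by
  apply eq_zero_of_vc h2 hS
  obtain ⟨h00, h11, h22, h01, h12, h20⟩ := skew_entries h2 hS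
  have e21 := congrFun (congrFun h 2) 1
  have e02 := congrFun (congrFun h 0) 2
  have e10 := congrFun (congrFun h 1) 0
  simp only [Matrix.add_apply, Matrix.mul_apply, Fin.sum_univ_three, Matrix.transpose_apply,
    Matrix.zero_apply, h00, h11, h22, h01, h12, h20] at e21 e02 e10
  have hd' : (r.trace • (1 : Matrix (Fin 3) (Fin 3) F) - rᵀ).det ≠ 0 := by
    rw [← Matrix.det_transpose, Matrix.transpose_sub, Matrix.transpose_smul,
      Matrix.transpose_one, Matrix.transpose_transpose]
    exact hd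
  by_contra hne
  apply hd'
  apply Matrix.exists_mulVec_eq_zero_iff.1
  refine ⟨vc S, hne, ?_⟩
  funext i
  rw [Matrix.trace_fin_three]
  fin_cases i
  · simp [Matrix.mulVec, dotProduct, Fin.sum_univ_three, vc, Matrix.one_apply]
    linear_combination e21
  · simp [Matrix.mulVec, dotProduct, Fin.sum_univ_three, vc, Matrix.one_apply]
    linear_combination e02
  · simp [Matrix.mulVec, dotProduct, Fin.sum_univ_three, vc, Matrix.one_apply]
    linear_combination e10

/-- The relation `z P zᵀ = c P`. -/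
theorem eq_zero_of_conj (h2 : (2 : F) ≠ 0) {z P : Matrix (Fin 3) (Fin 3) F} (hP : Pᵀ = -P)
    {c : F} (h : z * P * zᵀ = c • P)
    (hd : (z.adjugate - c • (1 : Matrix (Fin 3) (Fin 3) F)).det ≠ 0) : P = 0 := by
  apply eq_zero_of_vc h2 hP
  obtain ⟨h00, h11, h22, h01, h12, h20⟩ := skew_entries h2 hP
  have e21 := congrFun (congrFun h 2) 1
  have e02 := congrFun (congrFun h 0) 2
  have e10 := congrFun (congrFun h 1) 0
  simp only [Matrix.smul_apply, Matrix.mul_apply, Fin.sum_univ_three, Matrix.transpose_apply,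
    smul_eq_mul, h00, h11, h22, h01, h12, h20] at e21 e02 e10
  have hd' : ((z.adjugate)ᵀ - c • (1 : Matrix (Fin 3) (Fin 3) F)).det ≠ 0 := by
    rw [← Matrix.det_transpose, Matrix.transpose_sub, Matrix.transpose_smul,
      Matrix.transpose_one, Matrix.transpose_transpose]
    exact hd
  by_contra hne
  apply hd'
  apply Matrix.exists_mulVec_eq_zero_iff.1
  refine ⟨vc P, hne, ?_⟩
  funext i
  rw [Matrix.adjugate_fin_three]
  fin_cases i
  · simp [Matrix.mulVec, dotProduct, Fin.sum_univ_three, vc, Matrix.one_apply]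
    linear_combination e21
  · simp [Matrix.mulVec, dotProduct, Fin.sum_univ_three, vc, Matrix.one_apply]
    linear_combination e02
  · simp [Matrix.mulVec, dotProduct, Fin.sum_univ_three, vc, Matrix.one_apply]
    linear_combination e10

end Vale.Agent.P011.E6W.H964
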