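import Vale.Agent.P011.E6W.H964.MatA
import Vale.Agent.P011.E6O.DD
import Vale.Agent.P011.E6I.H369.Dk

/-!
Block E6W (helper964): the matrices `x`, `y` with `x² - c y² = 1` attached to an element of the
cyclic algebra.
-/

open Matrix

namespace Vale.Agent.P011.E6W.H964

open Vale.Agent.P011.E6I (D0_mul D0_sub D0_add D0_smul D0_one D0_trace D0_adj)

section alg

variable {K : Type} [Field K] {z : Matrix (Fin 3) (Fin 3) K} {c : K}

/-- The matrix `z² - c`. -/
def De (z : Matrix (Fin 3) (Fin 3) K) (c : K) : Matrix (Fin 3) (Fin 3) K :=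
  z * z - c • (1 : Matrix (Fin 3) (Fin 3) K)

/-- The matrix `x`. -/
noncomputable def xz (z : Matrix (Fin 3) (Fin 3) K) (c : K) : Matrix (Fin 3) (Fin 3) K :=
  1 + (2 * c) • (De z c)⁻¹

/-- The matrix `y`. -/
noncomputable def yz (z : Matrix (Fin 3) (Fin 3) K) (c : K) : Matrix (Fin 3) (Fin 3) K :=
  (2 : K) • (z * (De z c)⁻¹)

theorem De_comm : De z c * z = z * De z c := by
  rw [De, Matrix.sub_mul, Matrix.mul_sub, Matrix.mul_assoc, Matrix.smul_mul, Matrix.mul_smul,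
    Matrix.one_mul, Matrix.mul_one]

theorem inv_comm' {A B : Matrix (Fin 3) (Fin 3) K} (hd : A.det ≠ 0) (h : A * B = B * A) :
    A⁻¹ * B = B * A⁻¹ := by
  have hu : IsUnit A.det := isUnit_iff_ne_zero.2 hd
  calc A⁻¹ * B = A⁻¹ * (B * A) * A⁻¹ := by
        rw [Matrix.mul_assoc, Matrix.mul_assoc B, Matrix.mul_nonsing_inv _ hu, Matrix.mul_one]
    _ = B * A⁻¹ := by
        rw [← h, ← Matrix.mul_assoc, Matrix.nonsing_inv_mul _ hu, Matrix.one_mul]

theorem Di_comm (hd : (De z c).det ≠ 0) : (De z c)⁻¹ * z = z * (De z c)⁻¹ :=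
  inv_comm' hd De_comm

theorem zz_Di (hd : (De z c).det ≠ 0) : z * z * (De z c)⁻¹ = 1 + c • (De z c)⁻¹ := by
  have hu : IsUnit (De z c).det := isUnit_iff_ne_zero.2 hd
  have h := Matrix.mul_nonsing_inv _ hu
  have e : z * z = De z c + c • (1 : Matrix (Fin 3) (Fin 3) K) := by rw [De]; abel
  conv_lhs => rw [e]
  rw [Matrix.add_mul, h, Matrix.smul_mul, Matrix.one_mul]

theorem xz_comm (hd : (De z c).det ≠ 0) : xz z c * z = z * xz z c := by
  rw [xz, Matrix.add_mul, Matrix.mul_add, Matrix.smul_mul, Matrix.mul_smul, Di_comm hd,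
    Matrix.one_mul, Matrix.mul_one]

theorem yz_comm (hd : (De z c).det ≠ 0) : yz z c * z = z * yz z c := by
  rw [yz, Matrix.smul_mul, Matrix.mul_smul, Matrix.mul_assoc, Di_comm hd]

theorem xy_comm (hd : (De z c).det ≠ 0) : xz z c * yz z c = yz z c * xz z c := by
  have h : xz z c * (De z c)⁻¹ = (De z c)⁻¹ * xz z c := by
    rw [xz, Matrix.add_mul, Matrix.mul_add, Matrix.smul_mul, Matrix.mul_smul, Matrix.one_mul,
      Matrix.mul_one]
  rw [yz, Matrix.mul_smul, Matrix.smul_mul, ← Matrix.mul_assoc, xz_comm hd, Matrix.mul_assoc, h,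
    Matrix.mul_assoc]

theorem xy_one (hd : (De z c).det ≠ 0) :
    xz z c * xz z c - c • (yz z c * yz z c) = 1 := by
  have e : z * (De z c)⁻¹ * (z * (De z c)⁻¹) =
      (De z c)⁻¹ + c • ((De z c)⁻¹ * (De z c)⁻¹) := by
    calc z * (De z c)⁻¹ * (z * (De z c)⁻¹) = z * ((De z c)⁻¹ * z) * (De z c)⁻¹ := by
          simp only [Matrix.mul_assoc]
      _ = z * z * (De z c)⁻¹ * (De z c)⁻¹ := by
          rw [Di_comm hd]; simp only [Matrix.mul_assoc]
      _ = _ := by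
          rw [zz_Di hd, Matrix.add_mul, Matrix.one_mul, Matrix.smul_mul]
  rw [xz, yz, Matrix.smul_mul, Matrix.mul_smul, e]
  simp only [Matrix.add_mul, Matrix.mul_add, Matrix.one_mul, Matrix.mul_one, Matrix.smul_mul,
    Matrix.mul_smul]
  module

theorem De_mul_xz (hd : (De z c).det ≠ 0) :
    De z c * xz z c = z * z + c • (1 : Matrix (Fin 3) (Fin 3) K) := by
  have hu : IsUnit (De z c).det := isUnit_iff_ne_zero.2 hd
  rw [xz, Matrix.mul_add, Matrix.mul_smul, Matrix.mul_nonsing_inv _ hu, Matrix.mul_one, De]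
  module

theorem De_mul_yz (hd : (De z c).det ≠ 0) : De z c * yz z c = (2 : K) • z := by
  have hu : IsUnit (De z c).det := isUnit_iff_ne_zero.2 hd
  rw [yz, Matrix.mul_smul, ← Matrix.mul_assoc, De_comm, Matrix.mul_assoc,
    Matrix.mul_nonsing_inv _ hu, Matrix.mul_one]

/-- The intertwining relations which follow from the vanishing of the two coordinates. -/
theorem inter (h2 : (2 : K) ≠ 0) (hd : (De z c).det ≠ 0)
    (hd1 : (z.adjugate - c • (1 : Matrix (Fin 3) (Fin 3) K)).det ≠ 0)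
    (hd2 : (z.adjugate - (-c) • (1 : Matrix (Fin 3) (Fin 3) K)).det ≠ 0)
    (hd3 : (z.trace • (1 : Matrix (Fin 3) (Fin 3) K) - z).det ≠ 0)
    {S S' : Matrix (Fin 3) (Fin 3) K} (hS : Sᵀ = S) (hS' : S'ᵀ = -S')
    (e2 : yz z c * S * (xz z c)ᵀ - xz z c * S * (yz z c)ᵀ = 0)
    (e3 : -(yz z c * S' * (xz z c)ᵀ) - xz z c * S' * (yz z c)ᵀ = 0) :
    z * S = S * zᵀ ∧ S' = 0 := by
  have hx := De_mul_xz hd
  have hy := De_mul_yz hd
  have hxt : (xz z c)ᵀ * (De z c)ᵀ = zᵀ * zᵀ + c • (1 : Matrix (Fin 3) (Fin 3) K) := by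
    rw [← Matrix.transpose_mul, hx, Matrix.transpose_add, Matrix.transpose_mul,
      Matrix.transpose_smul, Matrix.transpose_one]
  have hyt : (yz z c)ᵀ * (De z c)ᵀ = (2 : K) • zᵀ := by
    rw [← Matrix.transpose_mul, hy, Matrix.transpose_smul]
  have key : ∀ T : Matrix (Fin 3) (Fin 3) K,
      De z c * (yz z c * T * (xz z c)ᵀ) * (De z c)ᵀ =
        (2 : K) • (z * T * (zᵀ * zᵀ) + c • (z * T)) ∧
      De z c * (xz z c * T * (yz z c)ᵀ) * (De z c)ᵀ =
        (2 : K) • (z * z * T * zᵀ + c • (T * zᵀ)) := by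
    intro T
    constructor
    · calc De z c * (yz z c * T * (xz z c)ᵀ) * (De z c)ᵀ =
          (De z c * yz z c) * T * ((xz z c)ᵀ * (De z c)ᵀ) := by simp only [Matrix.mul_assoc]
        _ = _ := by
          rw [hy, hxt]
          simp only [Matrix.smul_mul, Matrix.mul_add, Matrix.mul_smul, Matrix.mul_one]
          module
    · calc De z c * (xz z c * T * (yz z c)ᵀ) * (De z c)ᵀ =
          (De z c * xz z c) * T * ((yz z c)ᵀ * (De z c)ᵀ) := by simp only [Matrix.mul_assoc]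
        _ = _ := by
          rw [hx, hyt]
          simp only [Matrix.smul_mul, Matrix.add_mul, Matrix.mul_smul, Matrix.one_mul]
  have inj : ∀ {A : Matrix (Fin 3) (Fin 3) K}, (2 : K) • A = 0 → A = 0 := fun h =>
    (smul_eq_zero.1 h).resolve_left h2
  constructor
  · have h1 : z * S * (zᵀ * zᵀ) + c • (z * S) - (z * z * S * zᵀ + c • (S * zᵀ)) = 0 := by
      apply inj
      rw [smul_sub, ← (key S).1, ← (key S).2, ← Matrix.sub_mul, ← Matrix.mul_sub, e2,
        Matrix.mul_zero, Matrix.zero_mul]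
    have hP : (z * S - S * zᵀ)ᵀ = -(z * S - S * zᵀ) := by
      rw [Matrix.transpose_sub, Matrix.transpose_mul, Matrix.transpose_mul,
        Matrix.transpose_transpose, hS, neg_sub]
    have h3 : z * (z * S - S * zᵀ) * zᵀ = c • (z * S - S * zᵀ) := by
      have e : z * (z * S - S * zᵀ) * zᵀ = z * z * S * zᵀ - z * S * (zᵀ * zᵀ) := by
        simp only [Matrix.mul_sub, Matrix.sub_mul, Matrix.mul_assoc]
      rw [e, smul_sub]
      have h4 := sub_eq_zero.1 h1
      rw [sub_eq_sub_iff_add_eq_add, ← h4]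
      abel
    exact sub_eq_zero.1 (eq_zero_of_conj h2 hP h3 hd1)
  · have h1 : z * S' * (zᵀ * zᵀ) + c • (z * S') + (z * z * S' * zᵀ + c • (S' * zᵀ)) = 0 := by
      apply inj
      have e3' : yz z c * S' * (xz z c)ᵀ + xz z c * S' * (yz z c)ᵀ = 0 := by
        have h := congrArg (fun t => -t) e3
        simp only [neg_sub, sub_neg_eq_add, neg_zero] at h
        rw [add_comm]
        exact h
      rw [smul_add, ← (key S').1, ← (key S').2, ← Matrix.add_mul, ← Matrix.mul_add, e3',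
        Matrix.mul_zero, Matrix.zero_mul]
    have hP : (z * S' + S' * zᵀ)ᵀ = -(z * S' + S' * zᵀ) := by
      rw [Matrix.transpose_add, Matrix.transpose_mul, Matrix.transpose_mul,
        Matrix.transpose_transpose, hS', Matrix.neg_mul, Matrix.mul_neg]
      abel
    have h3 : z * (z * S' + S' * zᵀ) * zᵀ = (-c) • (z * S' + S' * zᵀ) := by
      have e : z * (z * S' + S' * zᵀ) * zᵀ = z * z * S' * zᵀ + z * S' * (zᵀ * zᵀ) := by
        simp only [Matrix.mul_add, Matrix.add_mul, Matrix.mul_assoc]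
      rw [e, neg_smul, smul_add]
      rw [eq_neg_iff_add_eq_zero, ← h1]
      abel
    exact eq_zero_of_add h2 hS' (eq_zero_of_conj h2 hP h3 hd2) hd3

end alg

section D

variable {k L : Type} [Field k] [Field L] [Algebra k L] {ρ : L ≃ₐ[k] L} {lam : kˣ}
  {z : Matrix (Fin 3) (Fin 3) L} {c : L}

theorem not_scalar_det (hρ3 : ∀ x, ρ (ρ (ρ x)) = x)
    (hN : ∀ x : L, x * ρ x * ρ (ρ x) ≠ algebraMap k L lam) (hz : E6I.InD0 ρ lam z)
    (hzk : ∀ t : L, z ≠ t • (1 : Matrix (Fin 3) (Fin 3) L)) (hc : ρ c = c) (hc0 : c ≠ 0) :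
    (z.adjugate - c • (1 : Matrix (Fin 3) (Fin 3) L)).det ≠ 0 := by
  apply E6O.det_ne hρ3 hN (D0_sub (D0_adj hz) (D0_smul hc D0_one))
  intro h
  have h1 := Matrix.mul_adjugate z
  rw [sub_eq_zero.1 h, Matrix.mul_smul, Matrix.mul_one] at h1
  apply hzk (c⁻¹ * z.det)
  rw [mul_smul, ← h1, smul_smul, inv_mul_cancel₀ hc0, one_smul]

theorem trace_sub_det (hρ3 : ∀ x, ρ (ρ (ρ x)) = x)
    (hN : ∀ x : L, x * ρ x * ρ (ρ x) ≠ algebraMap k L lam) (hz : E6I.InD0 ρ lam z)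
    (hzk : ∀ t : L, z ≠ t • (1 : Matrix (Fin 3) (Fin 3) L)) :
    (z.trace • (1 : Matrix (Fin 3) (Fin 3) L) - z).det ≠ 0 := by
  apply E6O.det_ne hρ3 hN (D0_sub (D0_smul (D0_trace hz) D0_one) hz)
  intro h
  exact hzk _ (sub_eq_zero.1 h).symm

theorem D0_De (hz : E6I.InD0 ρ lam z) (hc : ρ c = c) : E6I.InD0 ρ lam (De z c) :=
  D0_sub (D0_mul hz hz) (D0_smul hc D0_one)

theorem D0_xz (hz : E6I.InD0 ρ lam z) (hc : ρ c = c) (hd : (De z c).det ≠ 0) :
    E6I.InD0 ρ lam (xz z c) :=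
  D0_add D0_one (D0_smul (by rw [map_mul, hc, map_ofNat]) (E6O.inv_mem (D0_De hz hc) hd))

theorem D0_yz (hz : E6I.InD0 ρ lam z) (hc : ρ c = c) (hd : (De z c).det ≠ 0) :
    E6I.InD0 ρ lam (yz z c) :=
  D0_smul (map_ofNat ρ 2) (D0_mul hz (E6O.inv_mem (D0_De hz hc) hd))

end D

end Vale.Agent.P011.E6W.H964
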