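import Vale.Agent.P011.E6W.H541.Dsc
import Mathlib

/-!
Block E6W (helper964): real polynomials whose square is a given positive element of the algebra
generated by a cubic matrix.
-/

open Matrix Polynomial

namespace Vale.Agent.P011.E6W.H964

/-- A real cubic polynomial has a real root. -/
theorem exists_root3 (p2 p1 p0 : ℝ) : ∃ x : ℝ, x ^ 3 = p2 * x ^ 2 + p1 * x + p0 := by
  obtain ⟨M, hM⟩ : ∃ M : ℝ, M = 1 + |p2| + |p1| + |p0| := ⟨_, rfl⟩
  have h2 := abs_nonneg p2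
  have h1 := abs_nonneg p1
  have h0 := abs_nonneg p0
  have hM1 : 1 ≤ M := by rw [hM]; linarith
  have a2 := abs_le.1 (le_refl |p2|)
  have a1 := abs_le.1 (le_refl |p1|)
  have a0 := abs_le.1 (le_refl |p0|)
  have hM2 : 0 ≤ M ^ 2 := sq_nonneg M
  have hMM : M ≤ M ^ 2 := by nlinarith
  have h1M : 1 ≤ M ^ 2 := le_trans hM1 hMM
  have e1 : |p1| * M ≤ |p1| * M ^ 2 := mul_le_mul_of_nonneg_left hMM h1
  have e0 : |p0| ≤ |p0| * M ^ 2 := le_mul_of_one_le_right h0 h1M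
  have e2 : M ^ 3 = M ^ 2 + |p2| * M ^ 2 + |p1| * M ^ 2 + |p0| * M ^ 2 := by
    have : M ^ 3 = M * M ^ 2 := by ring
    rw [this]
    nth_rw 1 [hM]
    ring
  have b2 : p2 * M ^ 2 ≤ |p2| * M ^ 2 := mul_le_mul_of_nonneg_right a2.2 hM2
  have b2' : -(|p2| * M ^ 2) ≤ p2 * M ^ 2 := by
    rw [← neg_mul]
    exact mul_le_mul_of_nonneg_right a2.1 hM2
  have hM0 : 0 ≤ M := le_trans zero_le_one hM1
  have b1 : p1 * M ≤ |p1| * M := mul_le_mul_of_nonneg_right a1.2 hM0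
  have b1' : -(|p1| * M) ≤ p1 * M := by
    rw [← neg_mul]
    exact mul_le_mul_of_nonneg_right a1.1 hM0
  have hcont : ContinuousOn (fun x : ℝ => x ^ 3 - (p2 * x ^ 2 + p1 * x + p0)) (Set.Icc (-M) M) := by
    fun_prop
  have hle : -M ≤ M := by linarith
  have hmem : (0 : ℝ) ∈ Set.Icc ((-M) ^ 3 - (p2 * (-M) ^ 2 + p1 * (-M) + p0))
      (M ^ 3 - (p2 * M ^ 2 + p1 * M + p0)) := by
    constructor
    · have : (-M) ^ 3 - (p2 * (-M) ^ 2 + p1 * (-M) + p0) = -M ^ 3 - p2 * M ^ 2 + p1 * M - p0 := by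
        ring
      rw [this]
      linarith [a0.1]
    · linarith [a0.2]
  obtain ⟨x, -, hx⟩ := intermediate_value_Icc hle hcont hmem
  exact ⟨x, by linarith [hx]⟩

/-- Divisibility by a product of three distinct linear factors, evaluated at a matrix. -/
theorem eval_of_roots {Z : Matrix (Fin 3) (Fin 3) ℂ} {x y z : ℂ} (hxy : x ≠ y) (hxz : x ≠ z)
    (hyz : y ≠ z) {f g : ℂ[X]} (hf : f = (X - C x) * (X - C y) * (X - C z))
    (hfZ : aeval Z f = 0) (gx : g.eval x = 0) (gy : g.eval y = 0) (gz : g.eval z = 0) :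
    aeval Z g = 0 := by
  have h : f ∣ g := by
    rw [hf]
    have cxy : IsCoprime (X - C x : ℂ[X]) (X - C y) :=
      isCoprime_X_sub_C_of_isUnit_sub (isUnit_iff_ne_zero.2 (sub_ne_zero.2 hxy))
    have cxz : IsCoprime (X - C x : ℂ[X]) (X - C z) :=
      isCoprime_X_sub_C_of_isUnit_sub (isUnit_iff_ne_zero.2 (sub_ne_zero.2 hxz))
    have cyz : IsCoprime (X - C y : ℂ[X]) (X - C z) :=
      isCoprime_X_sub_C_of_isUnit_sub (isUnit_iff_ne_zero.2 (sub_ne_zero.2 hyz))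
    exact (cxz.mul_left cyz).mul_dvd (cxy.mul_dvd (dvd_iff_isRoot.2 gx) (dvd_iff_isRoot.2 gy))
      (dvd_iff_isRoot.2 gz)
  obtain ⟨q, rfl⟩ := h
  rw [map_mul, hfZ, zero_mul]

theorem exists_sqrt_aux {Z : Matrix (Fin 3) (Fin 3) ℂ} {p2 p1 p0 r0 r1 r2 t0 t1 t2 : ℝ}
    (hZ : Z ^ 3 = (p2 : ℂ) • Z ^ 2 + (p1 : ℂ) • Z + (p0 : ℂ) • 1) {x y z : ℂ} (hxy : x ≠ y)
    (hxz : x ≠ z) (hyz : y ≠ z) (s2 : x + y + z = p2) (s1 : x * y + x * z + y * z = -p1)
    (s0 : x * y * z = p0)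
    (ex : (t0 + t1 * x + t2 * x ^ 2) ^ 2 = r0 + r1 * x + r2 * x ^ 2)
    (ey : (t0 + t1 * y + t2 * y ^ 2) ^ 2 = r0 + r1 * y + r2 * y ^ 2)
    (ez : (t0 + t1 * z + t2 * z ^ 2) ^ 2 = r0 + r1 * z + r2 * z ^ 2) :
    ((t0 : ℂ) • 1 + (t1 : ℂ) • Z + (t2 : ℂ) • Z ^ 2) ^ 2 =
      (r0 : ℂ) • 1 + (r1 : ℂ) • Z + (r2 : ℂ) • Z ^ 2 := by
  have key := eval_of_roots (Z := Z) hxy hxz hyz
    (f := X ^ 3 - (C (p2 : ℂ) * X ^ 2 + C (p1 : ℂ) * X + C (p0 : ℂ)))
    (g := (C (t0 : ℂ) + C (t1 : ℂ) * X + C (t2 : ℂ) * X ^ 2) ^ 2 -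
      (C (r0 : ℂ) + C (r1 : ℂ) * X + C (r2 : ℂ) * X ^ 2)) ?_ ?_ ?_ ?_ ?_
  · simp only [map_sub, map_add, map_mul, map_pow, aeval_C, aeval_X, Algebra.algebraMap_eq_smul_one,
      smul_mul_assoc, one_mul] at key
    exact sub_eq_zero.1 key
  · have e2 : (p2 : ℂ) = x + y + z := s2.symm
    have e1 : (p1 : ℂ) = -(x * y + x * z + y * z) := by rw [s1, neg_neg]
    have e0 : (p0 : ℂ) = x * y * z := s0.symm
    rw [e2, e1, e0]
    simp only [map_add, map_mul, map_neg]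
    ring
  · simp only [map_sub, map_add, map_mul, map_pow, aeval_C, aeval_X, Algebra.algebraMap_eq_smul_one,
      smul_mul_assoc, one_mul]
    rw [hZ, sub_self]
  · simp only [eval_sub, eval_pow, eval_add, eval_mul, eval_C, eval_X]
    rw [ex, sub_self]
  · simp only [eval_sub, eval_pow, eval_add, eval_mul, eval_C, eval_X]
    rw [ey, sub_self]
  · simp only [eval_sub, eval_pow, eval_add, eval_mul, eval_C, eval_X]
    rw [ez, sub_self]

/-- A positive element of the real algebra generated by a cubic matrix is a square. -/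
theorem exists_sqrt {Z : Matrix (Fin 3) (Fin 3) ℂ} {p2 p1 p0 r0 r1 r2 : ℝ}
    (hZ : Z ^ 3 = (p2 : ℂ) • Z ^ 2 + (p1 : ℂ) • Z + (p0 : ℂ) • 1)
    (hd : dsc p2 p1 p0 ≠ 0)
    (hpos : ∀ x : ℝ, x ^ 3 = p2 * x ^ 2 + p1 * x + p0 → 0 < r0 + r1 * x + r2 * x ^ 2) :
    ∃ t0 t1 t2 : ℝ, ((t0 : ℂ) • 1 + (t1 : ℂ) • Z + (t2 : ℂ) • Z ^ 2) ^ 2 =
      (r0 : ℂ) • 1 + (r1 : ℂ) • Z + (r2 : ℂ) • Z ^ 2 := by
  obtain ⟨x, hx⟩ := exists_root3 p2 p1 p0
  obtain ⟨β, hβ⟩ : ∃ β : ℝ, β = x - p2 := ⟨_, rfl⟩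
  obtain ⟨γ, hγ⟩ : ∃ γ : ℝ, γ = x ^ 2 - p2 * x - p1 := ⟨_, rfl⟩
  have hp2 : p2 = x - β := by rw [hβ]; ring
  have hp1 : p1 = β * x - γ := by rw [hγ, hβ]; ring
  have hp0 : p0 = γ * x := by rw [hγ]; linear_combination -hx
  have hdd : dsc p2 p1 p0 = (β ^ 2 - 4 * γ) * (x ^ 2 + β * x + γ) ^ 2 := by
    rw [dsc, hp2, hp1, hp0]
    ring
  rw [hdd] at hd
  have hδ : β ^ 2 - 4 * γ ≠ 0 := left_ne_zero_of_mul hd
  have hq : x ^ 2 + β * x + γ ≠ 0 := fun h => hd (by rw [h]; ring)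
  have hrx := hpos x hx
  have hsx : (√(r0 + r1 * x + r2 * x ^ 2)) ^ 2 = r0 + r1 * x + r2 * x ^ 2 := Real.sq_sqrt hrx.le
  obtain ⟨sx, hsxd⟩ : ∃ sx : ℝ, sx ^ 2 = r0 + r1 * x + r2 * x ^ 2 := ⟨_, hsx⟩
  rcases lt_or_gt_of_ne hδ with hneg | hposd
  · -- one real root
    obtain ⟨e, he, he2⟩ : ∃ e : ℝ, e ≠ 0 ∧ e ^ 2 = -(β ^ 2 - 4 * γ) / 4 := by
      refine ⟨√(-(β ^ 2 - 4 * γ) / 4), ?_, Real.sq_sqrt (by linarith)⟩
      exact (Real.sqrt_pos.2 (by linarith)).ne'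
    -- the complex root
    obtain ⟨y, hy⟩ : ∃ y : ℂ, y = ((-β / 2 : ℝ) : ℂ) + (e : ℂ) * Complex.I := ⟨_, rfl⟩
    obtain ⟨z, hz⟩ : ∃ z : ℂ, z = ((-β / 2 : ℝ) : ℂ) - (e : ℂ) * Complex.I := ⟨_, rfl⟩
    have hI := Complex.I_sq
    have he2c : (e : ℂ) ^ 2 = -((β : ℂ) ^ 2 - 4 * γ) / 4 := by
      rw [← Complex.ofReal_pow, he2]
      push_cast
      ring
    have hyz : y + z = -β := by rw [hy, hz]; push_cast; ring
    have hyz2 : y * z = γ := by
      rw [hy, hz]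
      push_cast
      linear_combination (-(e : ℂ) ^ 2) * hI + he2c
    have hyr : y.re = -β / 2 := by rw [hy]; simp
    have hyi : y.im = e := by rw [hy]; simp
    have hzi : z.im = -e := by rw [hz]; simp
    have hxi : ((x : ℝ) : ℂ).im = 0 := Complex.ofReal_im x
    have nxy : (x : ℂ) ≠ y := fun h => he (by rw [← hyi, ← h, hxi])
    have nxz : (x : ℂ) ≠ z := fun h => he (by
      have : z.im = 0 := by rw [← h, hxi]
      rw [hzi] at this
      linarith)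
    have nyz : y ≠ z := fun h => he (by
      have : y.im = z.im := by rw [h]
      rw [hyi, hzi] at this
      linarith)
    have hzr : z.re = -β / 2 := by rw [hz]; simp
    have hzc : z = (starRingEnd ℂ) y := by
      apply Complex.ext
      · rw [Complex.conj_re, hzr, hyr]
      · rw [Complex.conj_im, hzi, hyi]
    -- the square root
    obtain ⟨s, hs⟩ : ∃ s : ℂ, s ^ 2 = r0 + r1 * y + r2 * y ^ 2 :=
      ⟨_, Complex.cpow_nat_inv_pow _ two_ne_zero⟩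
    obtain ⟨q, hqd⟩ : ∃ q : ℂ, (y - x) * q = s - sx :=
      ⟨(s - sx) / (y - x), mul_div_cancel₀ _ (sub_ne_zero.2 nxy.symm)⟩
    obtain ⟨u, v, huv⟩ : ∃ u v : ℝ, q = u + v * y := by
      refine ⟨q.re - q.im / e * y.re, q.im / e, ?_⟩
      apply Complex.ext
      · simp
      · simp [hyi, he]
    refine ⟨sx - x * u, u - x * v, v, exists_sqrt_aux hZ nxy nxz nyz ?_ ?_ ?_ ?_ ?_ ?_⟩
    · rw [add_assoc, hyz, hp2]; push_cast; ring
    · rw [← mul_add, hyz, hyz2, hp1]; push_cast; ring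
    · rw [mul_assoc, hyz2, hp0]; push_cast; ring
    · have : (sx : ℂ) ^ 2 = r0 + r1 * x + r2 * x ^ 2 := by exact_mod_cast hsxd
      rw [← this]
      push_cast
      ring
    · have e1 : ((sx - x * u : ℝ) : ℂ) + ((u - x * v : ℝ) : ℂ) * y + (v : ℂ) * y ^ 2 = s := by
        push_cast
        have := hqd
        rw [huv] at this
        linear_combination this
      rw [e1, hs]
    · have e1 : ((sx - x * u : ℝ) : ℂ) + ((u - x * v : ℝ) : ℂ) * z + (v : ℂ) * z ^ 2 =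
          (starRingEnd ℂ) s := by
        have e2 : ((sx - x * u : ℝ) : ℂ) + ((u - x * v : ℝ) : ℂ) * y + (v : ℂ) * y ^ 2 = s := by
          push_cast
          have := hqd
          rw [huv] at this
          linear_combination this
        rw [← e2, hzc]
        simp only [map_add, map_mul, map_pow, Complex.conj_ofReal]
      rw [e1, ← map_pow, hs, hzc]
      simp only [map_add, map_mul, map_pow, Complex.conj_ofReal]
  · -- three real roots
    obtain ⟨e, he, he2⟩ : ∃ e : ℝ, e ≠ 0 ∧ e ^ 2 = (β ^ 2 - 4 * γ) / 4 := by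
      refine ⟨√((β ^ 2 - 4 * γ) / 4), ?_, Real.sq_sqrt (by linarith)⟩
      exact (Real.sqrt_pos.2 (by linarith)).ne'
    obtain ⟨y, hy⟩ : ∃ y : ℝ, y = -β / 2 + e := ⟨_, rfl⟩
    obtain ⟨z, hz⟩ : ∃ z : ℝ, z = -β / 2 - e := ⟨_, rfl⟩
    have hyz : y + z = -β := by rw [hy, hz]; ring
    have hyz2 : y * z = γ := by
      rw [hy, hz]
      linear_combination -he2
    have hyq : y ^ 2 + β * y + γ = 0 := by linear_combination y * hyz - hyz2
    have hzq : z ^ 2 + β * z + γ = 0 := by linear_combination z * hyz - hyz2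
    have nxy : x ≠ y := fun h => hq (by rw [h]; exact hyq)
    have nxz : x ≠ z := fun h => hq (by rw [h]; exact hzq)
    have nyz : y ≠ z := fun h => he (by rw [hy, hz] at h; linarith)
    have hry := hpos y (by rw [hp2, hp1, hp0]; linear_combination (y - x) * hyq)
    have hrz := hpos z (by rw [hp2, hp1, hp0]; linear_combination (z - x) * hzq)
    obtain ⟨sy, hsy⟩ : ∃ s : ℝ, s ^ 2 = r0 + r1 * y + r2 * y ^ 2 := ⟨_, Real.sq_sqrt hry.le⟩
    obtain ⟨sz, hsz⟩ : ∃ s : ℝ, s ^ 2 = r0 + r1 * z + r2 * z ^ 2 := ⟨_, Real.sq_sqrt hrz.le⟩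
    -- Newton interpolation
    obtain ⟨u, hu⟩ : ∃ u : ℝ, (y - x) * u = sy - sx :=
      ⟨(sy - sx) / (y - x), mul_div_cancel₀ _ (sub_ne_zero.2 nxy.symm)⟩
    obtain ⟨v, hv⟩ : ∃ v : ℝ, (z - x) * (z - y) * v = sz - sx - (z - x) * u :=
      ⟨(sz - sx - (z - x) * u) / ((z - x) * (z - y)), mul_div_cancel₀ _
        (mul_ne_zero (sub_ne_zero.2 nxz.symm) (sub_ne_zero.2 nyz.symm))⟩
    refine ⟨sx - x * u + x * y * v, u - (x + y) * v, v, exists_sqrt_aux (x := (x : ℂ))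
      (y := (y : ℂ)) (z := (z : ℂ)) hZ ?_ ?_ ?_ ?_ ?_ ?_ ?_ ?_ ?_⟩
    · exact_mod_cast nxy
    · exact_mod_cast nxz
    · exact_mod_cast nyz
    · have : x + y + z = p2 := by rw [hp2]; linear_combination hyz
      exact_mod_cast this
    · have : x * y + x * z + y * z = -p1 := by rw [hp1]; linear_combination x * hyz + hyz2
      exact_mod_cast this
    · have : x * y * z = p0 := by rw [hp0]; linear_combination x * hyz2
      exact_mod_cast this
    · have : ((sx - x * u + x * y * v) + (u - (x + y) * v) * x + v * x ^ 2) ^ 2 =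
          r0 + r1 * x + r2 * x ^ 2 := by rw [← hsxd]; ring
      exact_mod_cast this
    · have e1 : (sx - x * u + x * y * v) + (u - (x + y) * v) * y + v * y ^ 2 = sy := by
        linear_combination hu
      have : ((sx - x * u + x * y * v) + (u - (x + y) * v) * y + v * y ^ 2) ^ 2 =
          r0 + r1 * y + r2 * y ^ 2 := by rw [e1, hsy]
      exact_mod_cast this
    · have e1 : (sx - x * u + x * y * v) + (u - (x + y) * v) * z + v * z ^ 2 = sz := by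
        linear_combination hv
      have : ((sx - x * u + x * y * v) + (u - (x + y) * v) * z + v * z ^ 2) ^ 2 =
          r0 + r1 * z + r2 * z ^ 2 := by rw [e1, hsz]
      exact_mod_cast this

end Vale.Agent.P011.E6W.H964
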